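/-
P217: the Lubin-Tate ring, Hazewinkel's universal deformation of the Honda formal group,
the stabilizer action and invariant ideals.

Hand-in definitions only; keep this file free of proofs.
-/
import Mathlib

namespace Vale.Agent.P217

open MvPowerSeries

variable (p n : ℕ) [Fact p.Prime]

/-- The residue field `F_{p^n}`. -/
abbrev Res : Type := GaloisField p n

/-- The Lubin-Tate ring `W(F_{p^n})[[u_1, ..., u_{n-1}]]`. -/
abbrev LT : Type := MvPowerSeries (Fin (n - 1)) (WittVector p (Res p n))

/-- `par 0 = p`, `par i = u_i` for `1 ≤ i < n`, `par i = 1` for `n ≤ i`. -/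
noncomputable def par (i : ℕ) : LT p n :=
  if hi : 1 ≤ i ∧ i < n then MvPowerSeries.X ⟨i - 1, by omega⟩
  else if i = 0 then (p : LT p n) else 1

/-- The height ideal `I_h = (p, u_1, ..., u_{h-1})`. -/
noncomputable def heightIdeal (h : ℕ) : Ideal (LT p n) :=
  Ideal.span (par p n '' {i | i < h})

/-- The coefficient ring of logarithms. -/
abbrev RatLT : Type := MvPowerSeries (Fin (n - 1)) (FractionRing (WittVector p (Res p n)))

/-- The inclusion of the Lubin-Tate ring into `RatLT`. -/
noncomputable def toRat : LT p n →+* RatLT p n :=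
  MvPowerSeries.map (algebraMap (WittVector p (Res p n)) (FractionRing (WittVector p (Res p n))))

/-- The constant `1/p`. -/
noncomputable def invP : RatLT p n :=
  MvPowerSeries.C ((p : FractionRing (WittVector p (Res p n)))⁻¹)

/-- Hazewinkel's coefficients: `m_0 = 1` and, for `N ≥ 1`,
`p m_N = Σ_{1 ≤ i ≤ n, i ≤ N} m_{N-i} u_i^{p^{N-i}}`, with `u_n = 1`. -/
noncomputable def logCoeff : ℕ → RatLT p n
  | 0 => 1
  | N + 1 => invP p n * ∑ i : Fin (N + 1),
      if i.val < n then
        logCoeff (N - i.val) * toRat p n (par p n (i.val + 1)) ^ p ^ (N - i.val)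
      else 0
  decreasing_by all_goals omega

/-- The logarithm `Σ_N m_N x^{p^N}`. -/
noncomputable def logSeries : PowerSeries (RatLT p n) :=
  PowerSeries.mk fun b => if p ^ Nat.log p b = b then logCoeff p n (Nat.log p b) else 0

/-- `F` is Hazewinkel's law: `log F(x,y) = log x + log y`. -/
def IsUniversalLaw (F : FormalGroup (LT p n)) : Prop :=
  PowerSeries.subst (MvPowerSeries.map (toRat p n) F.toPowerSeries) (logSeries p n) =
    PowerSeries.subst (MvPowerSeries.X (0 : Fin 2)) (logSeries p n) +
      PowerSeries.subst (MvPowerSeries.X (1 : Fin 2)) (logSeries p n)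

/-- Reduction modulo the maximal ideal. -/
noncomputable def red : LT p n →+* Res p n :=
  WittVector.constantCoeff.comp MvPowerSeries.constantCoeff

/-- The special fibre of `F`. -/
noncomputable def special (F : FormalGroup (LT p n)) : FormalGroup (Res p n) :=
  F.map (red p n)

/-- `f` is a homomorphism from the law `A` to the law `B`. -/
def IsHom {R : Type} [CommRing R] (A B : FormalGroup R) (f : PowerSeries R) : Prop :=
  PowerSeries.constantCoeff f = 0 ∧
    PowerSeries.subst A.toPowerSeries f =
      MvPowerSeries.subst ![PowerSeries.subst (MvPowerSeries.X (0 : Fin 2)) f,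
        PowerSeries.subst (MvPowerSeries.X (1 : Fin 2)) f] B.toPowerSeries

/-- An element of the Morava stabilizer group: an automorphism of the special fibre. -/
def IsStabilizer (F : FormalGroup (LT p n)) (g : PowerSeries (Res p n)) : Prop :=
  IsHom (special p n F) (special p n F) g ∧ IsUnit (PowerSeries.coeff 1 g)

/-- `φ` is the action of `g`: a `W`-algebra endomorphism `φ` of the Lubin-Tate ring such that `g`
lifts to a homomorphism from `F` to `φ_* F`. -/
def IsAction (F : FormalGroup (LT p n)) (g : PowerSeries (Res p n))
    (φ : LT p n →ₐ[WittVector p (Res p n)] LT p n) : Prop :=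
  ∃ f : PowerSeries (LT p n),
    PowerSeries.map (red p n) f = g ∧ IsHom F (F.map φ.toRingHom) f

/-- The Galois action on coefficients. -/
noncomputable def galois (τ : Res p n ≃+* Res p n) : LT p n →+* LT p n :=
  MvPowerSeries.map (WittVector.map τ.toRingHom)

/-- Invariance under the extended stabilizer group. -/
def IsInvariant (F : FormalGroup (LT p n)) (J : Ideal (LT p n)) : Prop :=
  (∀ g φ, IsStabilizer p n F g → IsAction p n F g φ → J.map φ.toRingHom ≤ J) ∧
    ∀ τ : Res p n ≃+* Res p n, J.map (galois p n τ) ≤ J

end Vale.Agent.P217
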