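/-
P217: interface of the law block.  Facts about Hazewinkel's law and its multiplication by `p`.
-/
import Vale.Agent.P217.Defs

namespace Vale.Agent.P217

variable (p n : ℕ) [Fact p.Prime]

/-- `e` is multiplication by `p` for the universal law. -/
def IsPSeries (e : PowerSeries (LT p n)) : Prop :=
  PowerSeries.constantCoeff e = 0 ∧
    PowerSeries.subst (PowerSeries.map (toRat p n) e) (logSeries p n) =
      PowerSeries.C (p : RatLT p n) * logSeries p n

/-- The multiplication-by-`p` series exists and is an endomorphism. -/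
def PSeriesStatement : Prop :=
  ∀ F : FormalGroup (LT p n), IsUniversalLaw p n F →
    ∃ e, IsPSeries p n e ∧ IsHom F F e

/-- Total degree of an exponent of a two-variable series. -/
def deg2 (d : Fin 2 →₀ ℕ) : ℕ := d 0 + d 1

/-- The coefficient `C(N, a)/p` of `((x+y)^N - x^N - y^N)/p`. -/
def cpc (N : ℕ) (d : Fin 2 →₀ ℕ) : ℕ :=
  if 0 < d 0 ∧ 0 < d 1 then N.choose (d 0) / p else 0

/-- Elementary facts on the `p`-series. -/
structure PSeriesFacts (e : PowerSeries (LT p n)) : Prop where
  /-- grading: a monomial `u^a` at `x^b` has `Σ_l a_l (p^(l+1) - 1) ≤ b - 1` -/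
  grading : ∀ b a, MvPowerSeries.coeff a (PowerSeries.coeff b e) ≠ 0 →
    ∑ l, a l * (p ^ (l.val + 1) - 1) ≤ b - 1
  /-- `e ≡ ... + u_i x^(p^i)` -/
  linear : ∀ i : Fin (n - 1), WittVector.constantCoeff
    (MvPowerSeries.coeff (Finsupp.single i 1) (PowerSeries.coeff (p ^ (i.val + 1)) e)) = 1
  /-- the special fibre has `[p](x) = x^(p^n)` -/
  special : PowerSeries.map (red p n) e = (PowerSeries.X : PowerSeries (Res p n)) ^ p ^ n
  /-- modulo `I_h` the `p`-series is a series in `x^(p^h)` -/
  frobenius : ∀ h ≤ n, ∀ b, ¬ p ^ h ∣ b → PowerSeries.coeff b e ∈ heightIdeal p n h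

/-- Elementary facts on the law. -/
structure LawFacts (F : FormalGroup (LT p n)) : Prop where
  comm : ∀ d : Fin 2 →₀ ℕ, MvPowerSeries.coeff d F.toPowerSeries =
    MvPowerSeries.coeff (d.mapDomain (Equiv.swap 0 1)) F.toPowerSeries
  /-- the coefficient of `u_i` in low degree -/
  linear : ∀ i : Fin (n - 1), ∀ d, deg2 d ≤ p ^ (i.val + 1) → WittVector.constantCoeff
      (MvPowerSeries.coeff (Finsupp.single i 1) (MvPowerSeries.coeff d F.toPowerSeries)) =
    if deg2 d = p ^ (i.val + 1) then -(cpc p (p ^ (i.val + 1)) d : Res p n) else 0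
  /-- the special fibre in low degree -/
  special_low : ∀ d, 2 ≤ deg2 d → deg2 d ≤ p ^ n →
    MvPowerSeries.coeff d (special p n F).toPowerSeries =
      if deg2 d = p ^ n then -(cpc p (p ^ n) d : Res p n) else 0
  /-- the special fibre has coefficients in the prime field -/
  special_fixed : ∀ d, MvPowerSeries.coeff d (special p n F).toPowerSeries ^ p =
    MvPowerSeries.coeff d (special p n F).toPowerSeries
  /-- the monomials `α x^(p^j)` are endomorphisms of the special fibre -/
  special_mono : ∀ (α : Res p n) (j : ℕ), IsHom (special p n F) (special p n F)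
    (PowerSeries.C α * PowerSeries.X ^ p ^ j)
  galois_fixed : ∀ τ : Res p n ≃+* Res p n, F.map (galois p n τ) = F

/-- The facts hold. -/
def FactsStatement : Prop :=
  ∀ F : FormalGroup (LT p n), IsUniversalLaw p n F →
    LawFacts p n F ∧ ∀ e, IsPSeries p n e → IsHom F F e ∧ PSeriesFacts p n e

end Vale.Agent.P217
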