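/-
P217: statements of the main blocks.
-/
import Vale.Agent.P217.Defs

namespace Vale.Agent.P217

variable (p n : ℕ) [Fact p.Prime]

/-- Block A (LAW). -/
def LawStatement : Prop :=
  ∃! F : FormalGroup (LT p n), IsUniversalLaw p n F

/-- Block B (ACT): existence, uniqueness and bijectivity of the action. -/
def ActionStatement : Prop :=
  ∀ F : FormalGroup (LT p n), IsUniversalLaw p n F →
    (∀ g, IsStabilizer p n F g →
        ∃! φ : LT p n →ₐ[WittVector p (Res p n)] LT p n, IsAction p n F g φ) ∧
      ∀ g φ, IsStabilizer p n F g → IsAction p n F g φ → Function.Bijective φ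

/-- `g` is congruent to the identity series below degree `T`. -/
def DeepStabilizer (F : FormalGroup (LT p n)) (T : ℕ) (g : PowerSeries (Res p n)) : Prop :=
  IsStabilizer p n F g ∧
    ∀ b < T, PowerSeries.coeff b g = PowerSeries.coeff b (PowerSeries.X : PowerSeries (Res p n))

/-- An ideal stable under all sufficiently deep elements of the stabilizer group. -/
def DeepInvariant (F : FormalGroup (LT p n)) (J : Ideal (LT p n)) : Prop :=
  ∃ T : ℕ, ∀ g φ, DeepStabilizer p n F T g → IsAction p n F g φ → J.map φ.toRingHom ≤ J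

/-- Block C (CONT): deep elements act congruently to the identity. -/
def ContinuityStatement : Prop :=
  ∀ F : FormalGroup (LT p n), IsUniversalLaw p n F → ∀ k : ℕ, ∃ T : ℕ,
    ∀ g φ, DeepStabilizer p n F T g → IsAction p n F g φ →
      ∀ a, φ a - a ∈ IsLocalRing.maximalIdeal (LT p n) ^ k

/-- Block D (EASY): the height ideals are invariant primes and `I_n` is the maximal ideal. -/
def EasyStatement : Prop :=
  ∀ F : FormalGroup (LT p n), IsUniversalLaw p n F →
    (∀ h ≤ n, (heightIdeal p n h).IsPrime ∧ IsInvariant p n F (heightIdeal p n h)) ∧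
      heightIdeal p n n = IsLocalRing.maximalIdeal (LT p n)

/-- Block E (GENERIC): a deep-invariant prime not containing `p` is zero. -/
def HeightZeroStatement : Prop :=
  ∀ F : FormalGroup (LT p n), IsUniversalLaw p n F → ∀ P : Ideal (LT p n), P.IsPrime →
    par p n 0 ∉ P → DeepInvariant p n F P → P = ⊥

/-- Block F (POSITIVE): a deep-invariant prime above `I_h` avoiding `u_h` equals `I_h`. -/
def PositiveHeightStatement : Prop :=
  ∀ F : FormalGroup (LT p n), IsUniversalLaw p n F → ∀ h, 1 ≤ h → h < n →
    ∀ P : Ideal (LT p n), P.IsPrime → heightIdeal p n h ≤ P → par p n h ∉ P →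
      DeepInvariant p n F P → P = heightIdeal p n h

/-- The full answer. -/
def MainStatement : Prop :=
  ∀ p n : ℕ, ∀ [Fact p.Prime], 1 ≤ n →
    ∃ F : FormalGroup (LT p n),
      IsUniversalLaw p n F ∧ (∀ F', IsUniversalLaw p n F' → F' = F) ∧
      (∀ g, IsStabilizer p n F g →
        ∃! φ : LT p n →ₐ[WittVector p (Res p n)] LT p n, IsAction p n F g φ) ∧
      (∀ g φ, IsStabilizer p n F g → IsAction p n F g φ → Function.Bijective φ) ∧
      (∀ P : Ideal (LT p n), P.IsPrime ∧ IsInvariant p n F P ↔
        ∃ h ≤ n, P = heightIdeal p n h) ∧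
      (∀ J : Ideal (LT p n), J.IsRadical ∧ IsInvariant p n F J ↔
        J = ⊤ ∨ ∃ h ≤ n, J = heightIdeal p n h)

end Vale.Agent.P217
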