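/-
P217: the main statement follows from the blocks.
-/
import Vale.Agent.P217.Spec

namespace Vale.Agent.P217

variable {p n : ℕ} [Fact p.Prime]

lemma heightIdeal_mono {a b : ℕ} (h : a ≤ b) : heightIdeal p n a ≤ heightIdeal p n b :=
  Ideal.span_mono (Set.image_mono fun i (hi : i < a) => Nat.lt_of_lt_of_le hi h)

lemma par_top (hn : 1 ≤ n) : par p n n = 1 := by
  have h1 : ¬ (1 ≤ n ∧ n < n) := by omega
  have h2 : n ≠ 0 := by omega
  simp [par, h1, h2]

lemma exists_height_of_deep (F : FormalGroup (LT p n)) (hF : IsUniversalLaw p n F) (hn : 1 ≤ n)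
    (hE : EasyStatement p n) (hZ : HeightZeroStatement p n) (hP : PositiveHeightStatement p n)
    (P : Ideal (LT p n)) (hp : P.IsPrime) (hd : DeepInvariant p n F P) :
    ∃ h ≤ n, P = heightIdeal p n h := by
  classical
  have hex : ∃ i, par p n i ∉ P :=
    ⟨n, by rw [par_top hn]; exact fun h => hp.ne_top ((Ideal.eq_top_iff_one P).2 h)⟩
  obtain ⟨h, hh, hmin⟩ : ∃ h, par p n h ∉ P ∧ ∀ i < h, par p n i ∈ P :=
    ⟨Nat.find hex, Nat.find_spec hex, fun i hi => by_contra fun hc => Nat.find_min hex hi hc⟩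
  have hle : heightIdeal p n h ≤ P := by
    refine Ideal.span_le.2 ?_
    rintro _ ⟨i, hi, rfl⟩
    exact hmin i hi
  have hhn : h ≤ n := by
    by_contra hc
    have h1 := hmin n (by omega)
    rw [par_top hn] at h1
    exact hp.ne_top ((Ideal.eq_top_iff_one P).2 h1)
  refine ⟨h, hhn, ?_⟩
  rcases Nat.eq_zero_or_pos h with h0 | h0
  · subst h0
    rw [hZ F hF P hp hh hd]
    simp [heightIdeal]
  rcases lt_or_eq_of_le hhn with hlt | heq
  · exact hP F hF h h0 hlt P hp hle hh hd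
  · subst heq
    obtain ⟨_, hmax⟩ := hE F hF
    have hm : (heightIdeal p h h).IsMaximal := hmax ▸ inferInstance
    exact (hm.eq_of_le hp.ne_top hle).symm

lemma deep_of_minimal (F : FormalGroup (LT p n)) (hF : IsUniversalLaw p n F)
    (hC : ContinuityStatement p n) (J : Ideal (LT p n)) (hJ : IsInvariant p n F J)
    (Q : Ideal (LT p n)) (hQ : Q ∈ J.minimalPrimes) : DeepInvariant p n F Q := by
  classical
  set m := IsLocalRing.maximalIdeal (LT p n) with hm
  have hQp : Q.IsPrime := hQ.1.1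
  have hfin := Ideal.finite_minimalPrimes_of_isNoetherianRing (LT p n) J
  have hsep : ∀ Q' ∈ J.minimalPrimes, ¬ Q' ≤ Q → ∃ k, ¬ Q' ≤ Q ⊔ m ^ k := by
    intro Q' _ hne
    by_contra hcon
    push Not at hcon
    apply hne
    intro a ha
    have : Nontrivial (LT p n ⧸ Q) := Ideal.Quotient.nontrivial_iff.mpr hQp.ne_top
    have hle : m.map (Ideal.Quotient.mk Q) ≠ ⊤ := by
      intro htop
      have hQm : Q ≤ m := IsLocalRing.le_maximalIdeal hQp.ne_top
      have := congrArg (Ideal.comap (Ideal.Quotient.mk Q)) htop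
      rw [Ideal.comap_map_of_surjective _ Ideal.Quotient.mk_surjective, Ideal.comap_top,
        ← RingHom.ker_eq_comap_bot, Ideal.mk_ker, sup_eq_left.2 hQm] at this
      exact (IsLocalRing.maximalIdeal.isMaximal (LT p n)).ne_top this
    have hbot := Ideal.iInf_pow_eq_bot_of_isDomain (m.map (Ideal.Quotient.mk Q)) hle
    have hmem : Ideal.Quotient.mk Q a ∈ ⨅ k : ℕ, m.map (Ideal.Quotient.mk Q) ^ k := by
      refine (Submodule.mem_iInf _).2 fun k => ?_
      rw [← Ideal.map_pow]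
      have h1 := Ideal.mem_map_of_mem (Ideal.Quotient.mk Q) (hcon k ha)
      rw [Ideal.map_sup, Ideal.map_quotient_self, bot_sup_eq] at h1
      exact h1
    rw [hbot] at hmem
    exact Ideal.Quotient.eq_zero_iff_mem.1 hmem
  choose! k hk using hsep
  obtain ⟨T, hT⟩ := hC F hF (hfin.toFinset.sup k)
  refine ⟨T, fun g φ hg hφ => ?_⟩
  rw [Ideal.map_le_iff_le_comap]
  have hJle : J ≤ Q.comap φ.toRingHom := by
    intro a ha
    exact hQ.1.2 (hJ.1 g φ hg.1 hφ (Ideal.mem_map_of_mem φ.toRingHom ha))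
  have : (Q.comap φ.toRingHom).IsPrime := hQp.comap _
  obtain ⟨Q', hQ', hQ'le⟩ := Ideal.exists_minimalPrimes_le hJle
  have hQ'sup : Q' ≤ Q ⊔ m ^ (hfin.toFinset.sup k) := by
    intro a ha
    have h1 : φ a ∈ Q := hQ'le ha
    have h2 := hT g φ hg hφ a
    have h3 : a = φ a - (φ a - a) := by ring
    rw [h3]
    exact sub_mem (Ideal.mem_sup_left h1) (Ideal.mem_sup_right h2)
  by_cases hle : Q' ≤ Q
  · exact (hQ.2 hQ'.1 hle).trans hQ'le
  · exfalso
    apply hk Q' hQ' hle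
    refine hQ'sup.trans (sup_le_sup_left (Ideal.pow_le_pow_right ?_) Q)
    exact Finset.le_sup (hfin.mem_toFinset.2 hQ')

theorem main_of_blocks
    (hA : ∀ p n, ∀ [Fact p.Prime], 1 ≤ n → LawStatement p n)
    (hB : ∀ p n, ∀ [Fact p.Prime], 1 ≤ n → ActionStatement p n)
    (hC : ∀ p n, ∀ [Fact p.Prime], 1 ≤ n → ContinuityStatement p n)
    (hD : ∀ p n, ∀ [Fact p.Prime], 1 ≤ n → EasyStatement p n)
    (hE : ∀ p n, ∀ [Fact p.Prime], 1 ≤ n → HeightZeroStatement p n)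
    (hF : ∀ p n, ∀ [Fact p.Prime], 1 ≤ n → PositiveHeightStatement p n) :
    MainStatement := by
  intro p n _ hn
  obtain ⟨F, hlaw, huniq⟩ := hA p n hn
  obtain ⟨hex, hbij⟩ := hB p n hn F hlaw
  obtain ⟨heasy, hmax⟩ := hD p n hn F hlaw
  have hdeep : ∀ Q : Ideal (LT p n), Q.IsPrime → DeepInvariant p n F Q →
      ∃ h ≤ n, Q = heightIdeal p n h :=
    exists_height_of_deep F hlaw hn (hD p n hn) (hE p n hn) (hF p n hn)
  refine ⟨F, hlaw, huniq, hex, hbij, fun P => ⟨?_, ?_⟩, fun J => ⟨?_, ?_⟩⟩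
  · rintro ⟨hp, hinv⟩
    exact hdeep P hp ⟨0, fun g φ hg hφ => hinv.1 g φ hg.1 hφ⟩
  · rintro ⟨h, hh, rfl⟩
    exact heasy h hh
  · rintro ⟨hrad, hinv⟩
    rcases eq_or_ne J ⊤ with htop | hne
    · exact Or.inl htop
    right
    classical
    have hall : ∀ Q ∈ J.minimalPrimes, ∃ h ≤ n, Q = heightIdeal p n h := fun Q hQ =>
      hdeep Q hQ.1.1 (deep_of_minimal F hlaw (hC p n hn) J hinv Q hQ)
    obtain ⟨⟨Q₀, hQ₀⟩⟩ := Ideal.nonempty_minimalPrimes hne
    obtain ⟨h₀, hh₀, hQ₀eq⟩ := hall Q₀ hQ₀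
    refine ⟨h₀, hh₀, ?_⟩
    have hsingle : J.minimalPrimes = {Q₀} := by
      refine Set.eq_singleton_iff_unique_mem.2 ⟨hQ₀, fun Q hQ => ?_⟩
      obtain ⟨h, hh, hQeq⟩ := hall Q hQ
      rcases le_total h h₀ with hle | hle
      · have h1 : Q ≤ Q₀ := by rw [hQeq, hQ₀eq]; exact heightIdeal_mono hle
        exact le_antisymm h1 (hQ₀.2 hQ.1 h1)
      · have h1 : Q₀ ≤ Q := by rw [hQeq, hQ₀eq]; exact heightIdeal_mono hle
        exact le_antisymm (hQ.2 hQ₀.1 h1) h1
    have := Ideal.sInf_minimalPrimes (I := J)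
    rw [hsingle, sInf_singleton, hrad.radical] at this
    rw [← this, hQ₀eq]
  · rintro (rfl | ⟨h, hh, rfl⟩)
    · refine ⟨fun x _ => Submodule.mem_top, ?_, ?_⟩
      · intro g φ _ _; exact le_top
      · intro τ; exact le_top
    · exact ⟨(heasy h hh).1.isRadical, (heasy h hh).2⟩

end Vale.Agent.P217
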