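/-
P217, block C: the Lubin-Tate ring is compact: ultrafilter limits of sequences.
-/
import Vale.Agent.P217.Defs

namespace Vale.Agent.P217

open Filter MvPowerSeries

section Span

variable {σ R : Type*} [CommRing R]

/-- A series without terms of degree `< k` lies in the `k`-th power of the ideal of the
variables. -/
lemma mem_span_X_pow_of_coeff_eq_zero [Finite σ] (k : ℕ) (a : MvPowerSeries σ R)
    (ha : ∀ d : σ →₀ ℕ, d.degree < k → coeff d a = 0) :
    a ∈ Ideal.span (Set.range (X : σ → MvPowerSeries σ R)) ^ k := by
  classical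
  have := Fintype.ofFinite σ
  -- every exponent of degree at least `k` dominates one of degree `k`
  have hsel : ∀ d : σ →₀ ℕ, k ≤ d.degree → ∃ e, e ≤ d ∧ e.degree = k := by
    intro d
    induction hm : d.degree - k generalizing d with
    | zero => intro h; exact ⟨d, le_rfl, by omega⟩
    | succ m ih =>
      intro h
      obtain ⟨i, hi⟩ : ∃ i, d i ≠ 0 := by
        by_contra hc
        push Not at hc
        have : d = 0 := Finsupp.ext hc
        rw [this, map_zero] at hm
        omega
      have hle : Finsupp.single i 1 ≤ d := Finsupp.single_le_iff.2 (Nat.one_le_iff_ne_zero.2 hi)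
      have hd : (d - Finsupp.single i 1).degree + 1 = d.degree := by
        have h2 := congrArg Finsupp.degree (tsub_add_cancel_of_le hle)
        simpa using h2
      obtain ⟨e, he, he'⟩ := ih (d - Finsupp.single i 1) (by omega) (by omega)
      exact ⟨e, he.trans tsub_le_self, he'⟩
  choose! sel hle hdeg using hsel
  have hfin : {e : σ →₀ ℕ | e.degree = k}.Finite := by
    refine (Set.finite_Iic (Finsupp.equivFunOnFinite.symm fun _ => k)).subset fun e he i => ?_
    simpa using (Finsupp.le_degree i e).trans he.le
  let part : (σ →₀ ℕ) → MvPowerSeries σ R := fun e r => if sel (e + r) = e then coeff (e + r) a else 0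
  have hsum : a = ∑ e ∈ hfin.toFinset, monomial e (1 : R) * part e := by
    ext d
    rw [map_sum]
    simp only [coeff_monomial_mul, one_mul]
    rcases lt_or_ge d.degree k with h | h
    · rw [ha d h, Finset.sum_eq_zero]
      intro e he
      split_ifs with h'
      · have hk : e.degree = k := by simpa using he
        have := Finsupp.degree_mono h'
        omega
      · rfl
    · rw [Finset.sum_eq_single (sel d)]
      · rw [if_pos (hle d h)]
        show coeff d a = if sel (sel d + (d - sel d)) = sel d then coeff (sel d + (d - sel d)) a else 0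
        rw [add_tsub_cancel_of_le (hle d h), if_pos rfl]
      · intro e _ hne
        split_ifs with h'
        · show (if sel (e + (d - e)) = e then coeff (e + (d - e)) a else 0) = 0
          rw [add_tsub_cancel_of_le h', if_neg (Ne.symm hne)]
        · rfl
      · intro hn
        exact absurd (by simpa using hdeg d h) hn
  rw [hsum]
  refine Ideal.sum_mem _ fun e he => Ideal.mul_mem_right _ _ ?_
  have hek : e.degree = k := by simpa using he
  have h1 : MvPolynomial.monomial e (1 : R) ∈ MvPolynomial.idealOfVars σ R ^ k := by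
    rw [MvPolynomial.mem_pow_idealOfVars_iff']
    intro x hx
    rw [MvPolynomial.coeff_monomial, if_neg]
    rintro rfl
    omega
  have h2 := Ideal.mem_map_of_mem MvPolynomial.coeToMvPowerSeries.ringHom h1
  rw [Ideal.map_pow, MvPolynomial.idealOfVars, Ideal.map_span, ← Set.range_comp] at h2
  simpa [Function.comp_def] using h2

end Span

namespace Cont

variable (p n : ℕ) [Fact p.Prime]

/-- The quotient by the `k`-th power of the maximal ideal. -/
noncomputable abbrev proj (k : ℕ) :
    LT p n →+* LT p n ⧸ IsLocalRing.maximalIdeal (LT p n) ^ k :=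
  Ideal.Quotient.mk _

variable {p n}

lemma proj_eq_iff {k : ℕ} {x y : LT p n} :
    proj p n k x = proj p n k y ↔ x - y ∈ IsLocalRing.maximalIdeal (LT p n) ^ k :=
  Ideal.Quotient.eq

lemma eq_of_proj {x y : LT p n} (h : ∀ k, proj p n k x = proj p n k y) : x = y := by
  have hbot := Ideal.iInf_pow_eq_bot_of_isLocalRing (IsLocalRing.maximalIdeal (LT p n))
    (IsLocalRing.maximalIdeal.isMaximal _).ne_top
  have hmem : x - y ∈ ⨅ k, IsLocalRing.maximalIdeal (LT p n) ^ k :=
    (Submodule.mem_iInf _).2 fun k => proj_eq_iff.1 (h k)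
  rw [hbot] at hmem
  exact sub_eq_zero.1 hmem

lemma span_X_le : Ideal.span (Set.range (X : Fin (n - 1) → LT p n)) ≤
    IsLocalRing.maximalIdeal (LT p n) := by
  refine Ideal.span_le.2 ?_
  rintro _ ⟨i, rfl⟩
  show X i ∈ IsLocalRing.maximalIdeal (LT p n)
  rw [IsLocalRing.mem_maximalIdeal, mem_nonunits_iff, isUnit_iff_constantCoeff, constantCoeff_X]
  exact not_isUnit_zero

lemma p_mem : (p : LT p n) ∈ IsLocalRing.maximalIdeal (LT p n) := by
  rw [IsLocalRing.mem_maximalIdeal, mem_nonunits_iff, isUnit_iff_constantCoeff, map_natCast]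
  intro h
  have h1 := h.map (WittVector.constantCoeff : WittVector p (Res p n) →+* Res p n)
  rw [map_natCast, CharP.cast_eq_zero] at h1
  exact not_isUnit_zero h1

/-- Agreement of the first `k` Witt components of the coefficients of degree `< k` gives
congruence modulo the `k`-th power of the maximal ideal. -/
lemma proj_eq_of_agree {k : ℕ} {x y : LT p n}
    (h : ∀ d : Fin (n - 1) →₀ ℕ, d.degree < k → ∀ i < k, (coeff d x).coeff i = (coeff d y).coeff i) :
    proj p n k x = proj p n k y := by
  classical
  rw [proj_eq_iff]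
  have hc : ∀ d : Fin (n - 1) →₀ ℕ, d.degree < k →
      ∃ c, coeff d (x - y) = (p : WittVector p (Res p n)) ^ k * c := by
    intro d hd
    rw [map_sub]
    refine Ideal.mem_span_singleton.1 ((WittVector.mem_span_p_pow_iff_le_coeff_eq_zero _ k).2 ?_)
    exact WittVector.le_coeff_eq_iff_le_sub_coeff_eq_zero.1 (h d hd)
  choose! c hc using hc
  let b : LT p n := fun d => if d.degree < k then c d else 0
  have hb : x - y - (p : LT p n) ^ k * b ∈ IsLocalRing.maximalIdeal (LT p n) ^ k := by
    refine Ideal.pow_right_mono span_X_le k (mem_span_X_pow_of_coeff_eq_zero k _ fun d hd => ?_)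
    have hpk : (p : LT p n) ^ k = C ((p : WittVector p (Res p n)) ^ k) := by
      rw [map_pow, map_natCast]
    rw [map_sub, hpk, coeff_C_mul, hc d hd]
    show _ - _ * (if d.degree < k then c d else 0) = 0
    rw [if_pos hd, sub_self]
  have hp := Ideal.mul_mem_right b _ (Ideal.pow_mem_pow (p_mem (p := p) (n := n)) k)
  simpa using add_mem hb hp

variable (U : Ultrafilter ℕ)

lemma exists_eventually_eq {X : Type*} [Finite X] (f : ℕ → X) :
    ∃ c, ∀ᶠ T in U, f T = c := by
  obtain ⟨c, hc⟩ := Ultrafilter.eq_pure_of_finite (U.map f)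
  refine ⟨c, ?_⟩
  have h : {c} ∈ U.map f := hc ▸ Ultrafilter.mem_pure.2 rfl
  exact Ultrafilter.mem_map.1 h

lemma exists_limit (a : ℕ → LT p n) :
    ∃ x : LT p n, ∀ k, ∀ᶠ T in U, proj p n k (a T) = proj p n k x := by
  classical
  have hres : Finite (Res p n) := inferInstance
  have hex : ∀ (d : Fin (n - 1) →₀ ℕ) (i : ℕ), ∃ c : Res p n,
      ∀ᶠ T in U, (coeff d (a T)).coeff i = c := fun d i => exists_eventually_eq U _
  choose c hc using hex
  let x : LT p n := fun d => WittVector.mk p (c d)
  refine ⟨x, fun k => ?_⟩
  have hfin : {d : Fin (n - 1) →₀ ℕ | d.degree < k}.Finite := by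
    refine (Set.finite_Iic (Finsupp.equivFunOnFinite.symm fun _ => k)).subset fun e he i => ?_
    simpa using (Finsupp.le_degree i e).trans (le_of_lt he)
  have h1 : ∀ᶠ T in U, ∀ d ∈ {d : Fin (n - 1) →₀ ℕ | d.degree < k}, ∀ i ∈ Finset.range k,
      (coeff d (a T)).coeff i = c d i := by
    rw [eventually_all_finite hfin]
    intro d _
    rw [eventually_all_finset]
    exact fun i _ => hc d i
  filter_upwards [h1] with T hT
  exact proj_eq_of_agree fun d hd i hi => (hT d hd i (Finset.mem_range.2 hi)).trans (by
    show c d i = (x d).coeff i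
    simp [x])

/-- The limit of a sequence along `U`. -/
noncomputable def lim (a : ℕ → LT p n) : LT p n := (exists_limit U a).choose

lemma lim_spec (a : ℕ → LT p n) (k : ℕ) :
    ∀ᶠ T in U, proj p n k (a T) = proj p n k (lim U a) :=
  (exists_limit U a).choose_spec k

lemma lim_eq {a : ℕ → LT p n} {x : LT p n}
    (h : ∀ k, ∀ᶠ T in U, proj p n k (a T) = proj p n k x) : lim U a = x := by
  refine eq_of_proj fun k => ?_
  obtain ⟨T, h1, h2⟩ := ((lim_spec U a k).and (h k)).exists
  exact h1.symm.trans h2

end Cont

end Vale.Agent.P217
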