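/-
P217, block C: deep elements of the stabilizer act congruently to the identity. A sequence of
counterexamples has, by compactness, a limit which is an action of the identity series, hence the
identity by uniqueness of the action.
-/
import Vale.Agent.P217.Spec
import Vale.Agent.P217.ContLimit

namespace Vale.Agent.P217

open Filter MvPowerSeries

namespace Cont

section Agree

variable {σ τ R : Type*} [CommRing R]

/-- Equal coefficients up to degree `k`. -/
def Agree (k : ℕ) (a b : MvPowerSeries σ R) : Prop :=
  ∀ d : σ →₀ ℕ, d.degree ≤ k → coeff d a = coeff d b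

lemma Agree.rfl' {k : ℕ} {a : MvPowerSeries σ R} : Agree k a a := fun _ _ => rfl

lemma Agree.mul {k : ℕ} {a b a' b' : MvPowerSeries σ R} (h : Agree k a b) (h' : Agree k a' b') :
    Agree k (a * a') (b * b') := by
  classical
  intro d hd
  rw [coeff_mul, coeff_mul]
  refine Finset.sum_congr rfl fun x hx => ?_
  rw [Finset.HasAntidiagonal.mem_antidiagonal] at hx
  have h2 : x.1.degree + x.2.degree = d.degree := by rw [← map_add, hx]
  rw [h x.1 (by omega), h' x.2 (by omega)]

lemma Agree.pow {k : ℕ} {a b : MvPowerSeries σ R} (h : Agree k a b) (j : ℕ) :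
    Agree k (a ^ j) (b ^ j) := by
  induction j with
  | zero => rw [pow_zero, pow_zero]; exact Agree.rfl'
  | succ j ih => rw [pow_succ, pow_succ]; exact ih.mul h

lemma Agree.prod {ι : Type*} {k : ℕ} (s : Finset ι) {a b : ι → MvPowerSeries σ R}
    (h : ∀ i ∈ s, Agree k (a i) (b i)) : Agree k (∏ i ∈ s, a i) (∏ i ∈ s, b i) := by
  classical
  induction s using Finset.induction_on with
  | empty => rw [Finset.prod_empty, Finset.prod_empty]; exact Agree.rfl'
  | insert i s hi ih =>
    rw [Finset.prod_insert hi, Finset.prod_insert hi]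
    exact (h i (Finset.mem_insert_self i s)).mul (ih fun j hj => h j (Finset.mem_insert_of_mem hj))

/-- Coefficients of a substitution only see the coefficients up to the same degree. -/
lemma Agree.subst [Finite σ] {k : ℕ} {a b : σ → MvPowerSeries τ R}
    (ha0 : ∀ i, constantCoeff (a i) = 0) (hb0 : ∀ i, constantCoeff (b i) = 0)
    {f g : MvPowerSeries σ R} (hfg : Agree k f g) (hab : ∀ i, Agree k (a i) (b i)) :
    Agree k (MvPowerSeries.subst a f) (MvPowerSeries.subst b g) := by
  intro e he
  rw [coeff_subst (hasSubst_of_constantCoeff_zero ha0),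
    coeff_subst (hasSubst_of_constantCoeff_zero hb0)]
  refine finsum_congr fun d => ?_
  rcases le_or_gt d.degree k with hd | hd
  · rw [hfg d hd]
    congr 1
    exact Agree.prod d.support (fun i _ => (hab i).pow _) e he
  · have hz : ∀ c : σ → MvPowerSeries τ R, (∀ i, constantCoeff (c i) = 0) →
        coeff e (d.prod fun s j => c s ^ j) = 0 := by
      intro c hc
      refine coeff_of_lt_order ?_
      calc (e.degree : ℕ∞) < (d.degree : ℕ∞) := by exact_mod_cast (lt_of_le_of_lt he hd)
        _ = ∑ i ∈ d.support, (d i : ℕ∞) := by rw [Finsupp.degree_apply]; push_cast; rfl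
        _ ≤ ∑ i ∈ d.support, (c i ^ d i).order := Finset.sum_le_sum fun i _ => by
            refine le_trans ?_ (le_order_pow _)
            have h1 : (1 : ℕ∞) ≤ (c i).order :=
              MvPowerSeries.one_le_order_iff_constCoeff_eq_zero.2 (hc i)
            calc (d i : ℕ∞) = d i • (1 : ℕ∞) := by rw [nsmul_one]
              _ ≤ d i • (c i).order := nsmul_le_nsmul_right h1 _
        _ ≤ (d.prod fun s j => c s ^ j).order := le_order_prod _ _
    rw [hz a ha0, hz b hb0, smul_zero, smul_zero]

end Agree

variable {p n : ℕ} [Fact p.Prime]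

/-- An endomorphism of the Lubin-Tate algebra preserves the maximal ideal. -/
lemma map_mem {φ : LT p n →ₐ[WittVector p (Res p n)] LT p n} {k : ℕ} {x : LT p n}
    (hx : x ∈ IsLocalRing.maximalIdeal (LT p n) ^ k) :
    φ x ∈ IsLocalRing.maximalIdeal (LT p n) ^ k := by
  let r : LT p n →+* Res p n := (red p n).comp φ.toRingHom
  have hsurj : Function.Surjective r := by
    intro c
    refine ⟨algebraMap (WittVector p (Res p n)) (LT p n) (WittVector.teichmuller p c), ?_⟩
    show red p n (φ (algebraMap _ _ _)) = c
    rw [AlgHom.commutes]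
    simp [red, MvPowerSeries.algebraMap_apply, WittVector.teichmuller_coeff_zero,
      WittVector.constantCoeff_apply]
  have hker : IsLocalRing.maximalIdeal (LT p n) = RingHom.ker r :=
    (IsLocalRing.eq_maximalIdeal (RingHom.ker_isMaximal_of_surjective r hsurj)).symm
  have hle : (IsLocalRing.maximalIdeal (LT p n)).map φ.toRingHom ≤
      IsLocalRing.maximalIdeal (LT p n) := by
    rw [Ideal.map_le_iff_le_comap]
    intro y hy
    rw [hker, RingHom.mem_ker] at hy
    show φ y ∈ IsLocalRing.maximalIdeal (LT p n)
    rw [IsLocalRing.mem_maximalIdeal, mem_nonunits_iff]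
    intro hu
    exact (hu.map (red p n)).ne_zero hy
  have h := Ideal.mem_map_of_mem φ.toRingHom hx
  rw [Ideal.map_pow] at h
  exact Ideal.pow_right_mono hle k h

lemma isHom_X {R : Type} [CommRing R] (A : FormalGroup R) : IsHom A A PowerSeries.X := by
  refine ⟨PowerSeries.constantCoeff_X, ?_⟩
  have h0 : PowerSeries.HasSubst A.toPowerSeries :=
    PowerSeries.HasSubst.of_constantCoeff_zero A.zero_constantCoeff
  have hX : ∀ i : Fin 2, PowerSeries.subst (MvPowerSeries.X i : MvPowerSeries (Fin 2) R)
      (PowerSeries.X : PowerSeries R) = MvPowerSeries.X i := fun i =>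
    PowerSeries.subst_X (PowerSeries.HasSubst.X i)
  rw [PowerSeries.subst_X h0, hX, hX]
  have hv : (![MvPowerSeries.X 0, MvPowerSeries.X 1] : Fin 2 → MvPowerSeries (Fin 2) R) =
      MvPowerSeries.X := by
    funext i; fin_cases i <;> rfl
  rw [hv, MvPowerSeries.subst_self]
  rfl

/-- If, modulo each `ker π`, the data agree in low degrees with a homomorphism, then the two sides
of the homomorphism equation agree modulo `ker π`. -/
lemma hom_eq_of_agree {R S : Type} [CommRing R] [CommRing S] (π : R →+* S) (A B B' : FormalGroup R)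
    (f f' : PowerSeries R) (d : Fin 2 →₀ ℕ) (hf : PowerSeries.constantCoeff f = 0)
    (hf' : IsHom A B' f')
    (hcoef : ∀ b ≤ d.degree, π (PowerSeries.coeff b f) = π (PowerSeries.coeff b f'))
    (hlaw : ∀ e : Fin 2 →₀ ℕ, e.degree ≤ d.degree →
      π (coeff e B.toPowerSeries) = π (coeff e B'.toPowerSeries)) :
    π (coeff d (PowerSeries.subst A.toPowerSeries f)) =
      π (coeff d (MvPowerSeries.subst ![PowerSeries.subst (X (0 : Fin 2) : MvPowerSeries (Fin 2) R) f,
        PowerSeries.subst (X (1 : Fin 2) : MvPowerSeries (Fin 2) R) f] B.toPowerSeries)) := by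
  have hs : ∀ q : PowerSeries R, PowerSeries.constantCoeff q = 0 → ∀ i : Fin 2,
      constantCoeff (PowerSeries.subst (X i : MvPowerSeries (Fin 2) R) q) = 0 :=
    fun q hq i => PowerSeries.constantCoeff_subst_eq_zero (constantCoeff_X i) q hq
  have hA : PowerSeries.HasSubst A.toPowerSeries :=
    PowerSeries.HasSubst.of_constantCoeff_zero A.zero_constantCoeff
  have hvec : ∀ q : PowerSeries R, PowerSeries.constantCoeff q = 0 → ∀ i : Fin 2,
      constantCoeff (![PowerSeries.subst (X (0 : Fin 2) : MvPowerSeries (Fin 2) R) q,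
        PowerSeries.subst (X (1 : Fin 2) : MvPowerSeries (Fin 2) R) q] i) = 0 := by
    intro q hq i
    fin_cases i
    · exact hs q hq 0
    · exact hs q hq 1
  have hq : Agree d.degree (PowerSeries.map π f) (PowerSeries.map π f') := by
    intro e he
    obtain ⟨b, rfl⟩ : ∃ b : ℕ, e = Finsupp.single () b :=
      ⟨e (), Finsupp.ext fun u => by cases u; simp⟩
    rw [Finsupp.degree_single] at he
    show PowerSeries.coeff b (PowerSeries.map π f) = PowerSeries.coeff b (PowerSeries.map π f')
    rw [PowerSeries.coeff_map, PowerSeries.coeff_map, hcoef b he]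
  have hB : Agree d.degree (MvPowerSeries.map π B.toPowerSeries)
      (MvPowerSeries.map π B'.toPowerSeries) := by
    intro e he
    rw [coeff_map, coeff_map, hlaw e he]
  have hsub : ∀ w : MvPowerSeries (Fin 2) R, constantCoeff w = 0 → Agree d.degree
      (MvPowerSeries.map π (PowerSeries.subst w f))
      (MvPowerSeries.map π (PowerSeries.subst w f')) := by
    intro w hw
    have hw' : PowerSeries.HasSubst w := PowerSeries.HasSubst.of_constantCoeff_zero hw
    rw [PowerSeries.map_subst hw', PowerSeries.map_subst hw', PowerSeries.subst_def,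
      PowerSeries.subst_def]
    exact Agree.subst (fun _ => by simp [hw]) (fun _ => by simp [hw]) hq fun _ => Agree.rfl'
  have hright : Agree d.degree
      (MvPowerSeries.map π (MvPowerSeries.subst ![PowerSeries.subst (X (0 : Fin 2) : MvPowerSeries (Fin 2) R) f,
        PowerSeries.subst (X (1 : Fin 2) : MvPowerSeries (Fin 2) R) f] B.toPowerSeries))
      (MvPowerSeries.map π (MvPowerSeries.subst ![PowerSeries.subst (X (0 : Fin 2) : MvPowerSeries (Fin 2) R) f',
        PowerSeries.subst (X (1 : Fin 2) : MvPowerSeries (Fin 2) R) f'] B'.toPowerSeries)) := by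
    rw [MvPowerSeries.map_subst (hasSubst_of_constantCoeff_zero (hvec f hf)),
      MvPowerSeries.map_subst (hasSubst_of_constantCoeff_zero (hvec f' hf'.1))]
    refine Agree.subst ?_ ?_ hB fun i => ?_
    · intro i; rw [constantCoeff_map, hvec f hf i, map_zero]
    · intro i; rw [constantCoeff_map, hvec f' hf'.1 i, map_zero]
    · fin_cases i
      · exact hsub _ (constantCoeff_X 0)
      · exact hsub _ (constantCoeff_X 1)
  have e1 := hsub _ A.zero_constantCoeff d le_rfl
  have e2 := hright d le_rfl
  rw [coeff_map, coeff_map] at e1 e2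
  rw [e1, e2, hf'.2]

variable (U : Ultrafilter ℕ)

/-- The pointwise limit of algebra endomorphisms. -/
noncomputable def limHom (φ : ℕ → LT p n →ₐ[WittVector p (Res p n)] LT p n) :
    LT p n →ₐ[WittVector p (Res p n)] LT p n where
  toFun a := lim U fun T => φ T a
  map_one' := lim_eq U fun k => Eventually.of_forall fun T => by rw [map_one]
  map_zero' := lim_eq U fun k => Eventually.of_forall fun T => by rw [map_zero]
  map_mul' a b := lim_eq U fun k => by
    filter_upwards [lim_spec U (fun T => φ T a) k, lim_spec U (fun T => φ T b) k] with T h1 h2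
    rw [map_mul, map_mul, h1, h2, map_mul]
  map_add' a b := lim_eq U fun k => by
    filter_upwards [lim_spec U (fun T => φ T a) k, lim_spec U (fun T => φ T b) k] with T h1 h2
    rw [map_add, map_add, h1, h2, map_add]
  commutes' w := lim_eq U fun k => Eventually.of_forall fun T => by rw [AlgHom.commutes]

lemma limHom_spec (φ : ℕ → LT p n →ₐ[WittVector p (Res p n)] LT p n) (a : LT p n) (k : ℕ) :
    ∀ᶠ T in U, proj p n k (φ T a) = proj p n k (limHom U φ a) :=
  lim_spec U _ k

end Cont

open Cont

/-- Block C follows from block B. -/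
theorem continuityStatement_of_action {p n : ℕ} [Fact p.Prime] (hB : ActionStatement p n) :
    ContinuityStatement p n := by
  classical
  intro F hF k
  by_contra hcon
  push Not at hcon
  choose g φ hg hφ a ha using hcon
  choose f hfred hfhom using hφ
  let U : Ultrafilter ℕ := hyperfilter ℕ
  have hU : ∀ b : ℕ, ∀ᶠ T : ℕ in (U : Filter ℕ), b < T := fun b => Nat.hyperfilter_le_atTop (eventually_gt_atTop b)
  let fl : PowerSeries (LT p n) := PowerSeries.mk fun b => lim U fun T => PowerSeries.coeff b (f T)
  have hfl0 : PowerSeries.constantCoeff fl = 0 := by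
    rw [← PowerSeries.coeff_zero_eq_constantCoeff_apply, PowerSeries.coeff_mk]
    refine lim_eq U fun j => Eventually.of_forall fun T => ?_
    rw [PowerSeries.coeff_zero_eq_constantCoeff_apply, (hfhom T).1]
  have hred : PowerSeries.map (red p n) fl = PowerSeries.X := by
    ext b
    rw [PowerSeries.coeff_map, PowerSeries.coeff_mk]
    obtain ⟨T, hT, hbT⟩ :=
      ((lim_spec U (fun T => PowerSeries.coeff b (f T)) 1).and (hU b)).exists
    rw [← (hg T).2 b hbT, ← hfred T, PowerSeries.coeff_map]
    rw [proj_eq_iff, pow_one, IsLocalRing.mem_maximalIdeal, mem_nonunits_iff] at hT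
    refine (sub_eq_zero.1 ?_).symm
    rw [← map_sub]
    by_contra hne
    refine hT (MvPowerSeries.isUnit_iff_constantCoeff.2 ?_)
    exact WittVector.isUnit_of_coeff_zero_ne_zero _ hne
  have hX : IsStabilizer p n F PowerSeries.X :=
    ⟨isHom_X _, by rw [PowerSeries.coeff_one_X]; exact isUnit_one⟩
  have hid : IsAction p n F PowerSeries.X (AlgHom.id _ (LT p n)) := by
    refine ⟨PowerSeries.X, PowerSeries.map_X _, ?_⟩
    have hmap : F.map (AlgHom.id (WittVector p (Res p n)) (LT p n)).toRingHom = F := by
      ext1
      ext d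
      simp
    rw [hmap]
    exact isHom_X F
  have hlim : IsAction p n F PowerSeries.X (limHom U φ) := by
    refine ⟨fl, hred, hfl0, ?_⟩
    refine MvPowerSeries.ext fun d => ?_
    refine eq_of_proj fun j => ?_
    set π := proj p n j
    have hfin : {e : Fin 2 →₀ ℕ | e.degree ≤ d.degree}.Finite := by
      refine (Set.finite_Iic (Finsupp.equivFunOnFinite.symm fun _ => d.degree)).subset
        fun e he i => ?_
      simpa using (Finsupp.le_degree i e).trans he
    have h1 : ∀ᶠ T in U, ∀ b ∈ Finset.range (d.degree + 1),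
        π (PowerSeries.coeff b (f T)) = π (PowerSeries.coeff b fl) := by
      rw [eventually_all_finset]
      intro b _
      rw [PowerSeries.coeff_mk]
      exact lim_spec U _ j
    have h2 : ∀ᶠ T in U, ∀ e ∈ {e : Fin 2 →₀ ℕ | e.degree ≤ d.degree},
        π (φ T (MvPowerSeries.coeff e F.toPowerSeries)) =
          π (limHom U φ (MvPowerSeries.coeff e F.toPowerSeries)) := by
      rw [eventually_all_finite hfin]
      exact fun e _ => limHom_spec U φ _ j
    obtain ⟨T, hT1, hT2⟩ := (h1.and h2).exists
    refine hom_eq_of_agree π F _ (F.map (φ T).toRingHom) fl (f T) d hfl0 (hfhom T)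
      (fun b hb => (hT1 b (Finset.mem_range.2 (by omega))).symm) fun e he => ?_
    simpa using (hT2 e he).symm
  have hfix : limHom U φ = AlgHom.id _ (LT p n) :=
    ((hB F hF).1 PowerSeries.X hX).unique hlim hid
  obtain ⟨T, h1, h2⟩ := ((lim_spec U a k).and (limHom_spec U φ (lim U a) k)).exists
  apply ha T
  rw [hfix] at h2
  have h3 := map_mem (φ := φ T) (proj_eq_iff.1 h1)
  rw [map_sub] at h3
  have h4 : proj p n k (φ T (a T)) = proj p n k (φ T (lim U a)) := proj_eq_iff.2 h3
  exact proj_eq_iff.1 (h4.trans (h2.trans h1.symm))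

end Vale.Agent.P217
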