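/-
P217: evaluation of power series in a complete nonarchimedean field (definitions).
-/
import Mathlib

namespace Vale.Agent.P217

variable {K : Type*} [NormedField K]

/-- Value of a power series at a point (junk if the series diverges). -/
noncomputable def ev {σ : Type*} (f : MvPowerSeries σ K) (a : σ → K) : K :=
  ∑' d : σ →₀ ℕ, MvPowerSeries.coeff d f * d.prod fun i e => a i ^ e

/-- Value of a one-variable power series at a point. -/
noncomputable def ev₁ (f : PowerSeries K) (a : K) : K :=
  ev f fun _ : Unit => a

/-- All coefficients have norm at most one. -/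
def IntegralSeries {σ : Type*} (f : MvPowerSeries σ K) : Prop :=
  ∀ d, ‖MvPowerSeries.coeff d f‖ ≤ 1

/-- Iterated sum for a formal group law evaluated at points. -/
noncomputable def evSum {r : ℕ} (H : MvPowerSeries (Fin 2) K) :
    {m : ℕ} → (Fin m → Fin r → K) → Fin r → K
  | 0, _ => 0
  | _ + 1, y => fun l => ev H ![evSum H (fun s => y s.castSucc) l, y (Fin.last _) l]

/-- Weight of an exponent vector. -/
noncomputable def wt {r : ℕ} (v : Fin r → ℝ) (d : Fin r →₀ ℕ) : ℝ :=
  ∑ l, (d l : ℝ) * v l

/-- Truncation below a weight. -/
noncomputable def truncWt {r : ℕ} (v : Fin r → ℝ) (D : ℝ) (f : MvPowerSeries (Fin r) K) :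
    MvPowerSeries (Fin r) K :=
  letI := Classical.decPred fun d : Fin r →₀ ℕ => wt v d < D
  fun d => if wt v d < D then MvPowerSeries.coeff d f else 0

end Vale.Agent.P217
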