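/-
P217: interfaces inside the positive-height block.
-/
import Vale.Agent.P217.Spec
import Vale.Agent.P217.Eval
import Vale.Agent.P217.LawFacts

namespace Vale.Agent.P217

variable (p n : ℕ) [Fact p.Prime]

/-- The law at a point. -/
noncomputable def lawAt {K : Type} [CommRing K] (F : FormalGroup (LT p n)) (x : LT p n →+* K) :
    MvPowerSeries (Fin 2) K :=
  MvPowerSeries.map x F.toPowerSeries

/-- `m` copies of `z` added for the law `G`. -/
noncomputable def copies {K : Type} [NormedField K] (G : MvPowerSeries (Fin 2) K) :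
    ℕ → K → K
  | 0, _ => 0
  | m + 1, z => ev G ![copies G m z, z]

/-- The combination `Σ c_i z_i` for the law `G`. -/
noncomputable def combination {K : Type} [NormedField K] (G : MvPowerSeries (Fin 2) K) {r : ℕ}
    (c : Fin r → ℕ) (z : Fin r → K) : K :=
  evSum (r := 1) G (fun i (_ : Fin 1) => copies G (c i) (z i)) 0

/-- Index in `Fin (n-1)` of the parameter `u_{h+j}`. -/
def slot (h : ℕ) (hh : 1 ≤ h) (j : Fin (n - h)) : Fin (n - 1) :=
  ⟨h - 1 + j.val, by omega⟩

/-- The data of a good valued point of `P`. -/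
structure GoodPoint (F : FormalGroup (LT p n)) (h : ℕ) (hh : 1 ≤ h) (P : Ideal (LT p n))
    (e : PowerSeries (LT p n))
    (K : Type) [NormedField K] where
  x : LT p n →+* K
  norm_le : ∀ a, ‖x a‖ ≤ 1
  norm_lt : ∀ a ∈ IsLocalRing.maximalIdeal (LT p n), ‖x a‖ < 1
  ker_eq : ∀ a, x a = 0 ↔ a ∈ P
  /-- `F_p`-basis of the `p`-torsion points. -/
  tor : Fin (n - h) → K
  tor_small : ∀ i, ‖tor i‖ < 1
  tor_root : ∀ i, ev₁ (PowerSeries.map x e) (tor i) = 0
  /-- independence over `F_p` for the group law -/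
  tor_indep : ∀ c : Fin (n - h) → ℕ, combination (lawAt p n F x) c tor = 0 → ∀ i, p ∣ c i
  rho : ℝ
  rho_pos : 0 < rho
  tor_le : ∀ i, ‖tor i‖ ≤ rho
  rho_attained : ∃ i, ‖tor i‖ = rho
  /-- the dimension of `P` at its generic point -/
  delta : ℕ
  delta_lt : delta < n - h
  good : Finset (Fin (n - h))
  good_card : good.card = delta
  /-- residues of the good coordinates are independent over `F_{p^h}` -/
  good_indep : ∀ γ : Fin (n - h) → K, (∀ i, γ i ^ p ^ h = γ i) →
    ‖∑ i ∈ good, γ i * tor i‖ < rho → ∀ i ∈ good, γ i = 0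
  extra : Fin (n - h)
  extra_not_mem : extra ∉ good
  /-- the extra coordinate is deeper, or independent over `F_p` of the good ones -/
  extra_cond : ‖tor extra‖ < rho ∨
    (‖tor extra‖ = rho ∧ ∀ γ : Fin (n - h) → K, (∀ i, γ i ^ p = γ i) →
      ‖∑ i ∈ insert extra good, γ i * tor i‖ < rho → ∀ i ∈ insert extra good, γ i = 0)
  /-- `n-h-delta` elements of `P` with independent differentials at the point -/
  eqn : Fin (n - h - delta) → LT p n
  eqn_mem : ∀ i, eqn i ∈ P
  eqn_indep : LinearIndependent K fun (i : Fin (n - h - delta)) (j : Fin (n - h)) =>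
    x (MvPowerSeries.pderiv (WittVector p (Res p n)) (slot n h hh j) (eqn i))

/-- Block F1 (POINT). -/
def PointStatement : Prop :=
  ∀ F : FormalGroup (LT p n), IsUniversalLaw p n F → ∀ e, IsPSeries p n e →
    ∀ h (hh : 1 ≤ h), h < n → ∀ P : Ideal (LT p n), P.IsPrime → heightIdeal p n h ≤ P →
      par p n h ∉ P → P ≠ heightIdeal p n h →
      ∃ (K : Type) (_ : NormedField K) (_ : CompleteSpace K),
        IsUltrametricDist K ∧ IsAlgClosed K ∧ CharP K p ∧ Nonempty (GoodPoint p n F h hh P e K)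

/-- Hypotheses of the rigidity lemma for a series `f`: it vanishes to every order along all
`H`-sums of Frobenius powers of the listed points. -/
def VanishesOnOrbit {K : Type} [NormedField K] {r : ℕ} {ι : Type} (P : ℕ) (v : Fin r → ℝ)
    (H : MvPowerSeries (Fin 2) K) (w : ι → Fin r → K) (f : MvPowerSeries (Fin r) K) : Prop :=
  ∀ (m : ℕ) (c : Fin m → ι) (R : Fin m → ℕ), ∃ θ : ℝ, 0 < θ ∧ θ < 1 ∧
    ∀ D : ℕ, ∃ (C : ℝ) (N₀ : ℕ), ∀ N ≥ N₀,
      ‖ev (truncWt v D f) (evSum H fun s l => w (c s) l ^ P ^ (N + R s))‖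
        ≤ C * θ ^ (D * P ^ N)

/-- Leading terms of `w_l^(p^b_l)`, among those of equal weight `c`, are independent over
`F_(p^h)`. -/
def ResiduesIndependent {K : Type} [NormedField K] {r : ℕ} {ι : Type} (h : ℕ) (v : Fin r → ℝ)
    (σ : ι → ℝ) (w : ι → Fin r → K) (J : Finset (Fin r)) : Prop :=
  ∀ (c : ℝ) (b : Fin r → ℕ) (γ : Fin r → K), (∀ l, γ l ^ p ^ h = γ l) →
    (∀ i, ‖∑ l ∈ J.filter (fun l => v l * (p : ℝ) ^ b l = c), γ l * w i l ^ p ^ b l‖ < σ i ^ c) →
    ∀ l ∈ J, v l * (p : ℝ) ^ b l = c → γ l = 0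

/-- Block F2 (RIGID), pure algebra. -/
def RigidStatement : Prop :=
  ∀ (K : Type) [NormedField K] [CompleteSpace K], IsUltrametricDist K → CharP K p →
    ∀ (h : ℕ), 1 ≤ h → ∀ (r : ℕ) (H : FormalGroup K),
      (∀ d, MvPowerSeries.coeff d H.toPowerSeries ^ p ^ h =
        MvPowerSeries.coeff d H.toPowerSeries) →
      ∀ (ι : Type) [Finite ι] (v : Fin r → ℝ) (σ : ι → ℝ) (w : ι → Fin r → K)
        (J : Finset (Fin r)),
      (∀ l, 1 ≤ v l) → (∀ i, 0 < σ i ∧ σ i < 1) → (∀ i l, ‖w i l‖ ≤ σ i ^ v l) →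
      ResiduesIndependent p h v σ w J →
      ∀ f : MvPowerSeries (Fin r) K, VanishesOnOrbit (p ^ h) v H.toPowerSeries w f →
        ∀ W : ℝ, (∀ d, wt v d < W → MvPowerSeries.coeff d f = 0) →
          (∀ d, wt v d = W → ¬ (d.support ⊆ J) → MvPowerSeries.coeff d f = 0) →
          ∀ d, wt v d = W → MvPowerSeries.coeff d f = 0

/-- Block F3 (COUNT), pure algebra: an ideal of codimension `r - δ` at a smooth point contains
a series whose low part only involves `δ + 1` prescribed variables. -/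
def CountStatement : Prop :=
  ∀ (K : Type) [Field K] (r δ : ℕ) (v : Fin r → ℝ) (J : Finset (Fin r)),
    (∀ l, 1 ≤ v l) → δ < J.card →
    ∀ g : Fin (r - δ) → MvPowerSeries (Fin r) K,
      (∀ i, MvPowerSeries.constantCoeff (g i) = 0) →
      LinearIndependent K (fun (i : Fin (r - δ)) (j : Fin r) =>
        MvPowerSeries.coeff (Finsupp.single j 1) (g i)) →
      ∃ (W : ℝ) (f : MvPowerSeries (Fin r) K), f ∈ Ideal.span (Set.range g) ∧
        (∀ d, wt v d < W → ¬ (d.support ⊆ J) → MvPowerSeries.coeff d f = 0) ∧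
        ∃ d, wt v d < W ∧ MvPowerSeries.coeff d f ≠ 0

/-- Block F4 (ORBIT): charts, slots and the Newton-polygon choice. -/
def OrbitStatement : Prop :=
  ∀ F : FormalGroup (LT p n), IsUniversalLaw p n F → ∀ e, IsPSeries p n e →
    ∀ h (hh : 1 ≤ h), h < n → ∀ P : Ideal (LT p n), P.IsPrime → heightIdeal p n h ≤ P →
      par p n h ∉ P → DeepInvariant p n F P →
      ∀ (K : Type) [NormedField K] [CompleteSpace K], IsUltrametricDist K → IsAlgClosed K →
        CharP K p → ∀ G : GoodPoint p n F h hh P e K,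
        ∃ (H : FormalGroup K) (ι : Type) (_ : Finite ι) (v : Fin (n - h) → ℝ) (σ : ι → ℝ)
          (w : ι → Fin (n - h) → K) (g : Fin (n - h - G.delta) → MvPowerSeries (Fin (n - h)) K),
          (∀ d, MvPowerSeries.coeff d H.toPowerSeries ^ p ^ h =
            MvPowerSeries.coeff d H.toPowerSeries) ∧
          (∀ l, 1 ≤ v l) ∧ (∀ i, 0 < σ i ∧ σ i < 1) ∧ (∀ i l, ‖w i l‖ ≤ σ i ^ v l) ∧
          ResiduesIndependent p h v σ w (insert G.extra G.good) ∧
          (∀ i, MvPowerSeries.constantCoeff (g i) = 0) ∧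
          LinearIndependent K (fun (i : Fin (n - h - G.delta)) (j : Fin (n - h)) =>
            MvPowerSeries.coeff (Finsupp.single j 1) (g i)) ∧
          ∀ f ∈ Ideal.span (Set.range g), VanishesOnOrbit (p ^ h) v H.toPowerSeries w f

variable {p n}

theorem positive_of_blocks (hS : PSeriesStatement p n) (h1 : PointStatement p n)
    (h2 : RigidStatement p) (h3 : CountStatement) (h4 : OrbitStatement p n) :
    PositiveHeightStatement p n := by
  classical
  intro F hF h hh hlt P hP hle hu hd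
  by_contra hne
  obtain ⟨e, he, -⟩ := hS F hF
  obtain ⟨K, i1, i2, hultra, hac, hchar, ⟨G⟩⟩ := h1 F hF e he h hh hlt P hP hle hu hne
  obtain ⟨H, ι, iF, v, σ, w, g, hHfix, hv, hσ, hw, hres, hg0, hglin, hvan⟩ :=
    h4 F hF e he h hh hlt P hP hle hu hd K hultra hac hchar G
  set J := insert G.extra G.good with hJ
  have hcard : G.delta < J.card := by
    rw [hJ, Finset.card_insert_of_notMem G.extra_not_mem, G.good_card]
    omega
  obtain ⟨W, f, hf, hsupp, d, hd1, hd2⟩ := h3 K (n - h) G.delta v J hv hcard g hg0 hglin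
  -- the least weight of a monomial of `f`
  have hfin : {c : Fin (n - h) →₀ ℕ | wt v c ≤ wt v d}.Finite := by
    refine Set.Finite.subset (Set.finite_Iic (Finsupp.equivFunOnFinite.symm
      fun _ : Fin (n - h) => Nat.ceil (wt v d))) ?_
    intro c hc l
    have h1 : (c l : ℝ) * v l ≤ wt v c :=
      Finset.single_le_sum (f := fun m => (c m : ℝ) * v m)
        (fun m _ => mul_nonneg (Nat.cast_nonneg _) (le_trans zero_le_one (hv m)))
        (Finset.mem_univ l)
    have h2 : (c l : ℝ) ≤ (c l : ℝ) * v l := le_mul_of_one_le_right (Nat.cast_nonneg _) (hv l)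
    have h3 : (c l : ℝ) ≤ (Nat.ceil (wt v d) : ℝ) :=
      le_trans (h2.trans (h1.trans hc)) (Nat.le_ceil _)
    simpa using Nat.cast_le.1 h3
  let S := hfin.toFinset.filter fun c => MvPowerSeries.coeff c f ≠ 0
  have hSne : S.Nonempty := ⟨d, by simp [S, hd2]⟩
  obtain ⟨c, hc, hmin⟩ := S.exists_min_image (wt v) hSne
  simp only [S, Finset.mem_filter, Set.Finite.mem_toFinset, Set.mem_setOf_eq] at hc
  refine hc.2 (h2 K hultra hchar h hh (n - h) H hHfix ι v σ w J hv hσ hw hres f
    (hvan f hf) (wt v c) ?_ ?_ c rfl)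
  · intro c' hc'
    by_contra hne'
    have := hmin c' (by
      simp only [S, Finset.mem_filter, Set.Finite.mem_toFinset, Set.mem_setOf_eq]
      exact ⟨le_of_lt (lt_of_lt_of_le hc' hc.1), hne'⟩)
    linarith
  · intro c' hc' hs
    exact hsupp c' (lt_of_le_of_lt (hc'.le.trans hc.1) hd1) hs

end Vale.Agent.P217
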