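/-
P217: block F3 (COUNT). An ideal of codimension `r - δ` at a smooth point contains a series
whose low part only involves `δ + 1` prescribed variables.
-/
import Vale.Agent.P217.SpecPos

namespace Vale.Agent.P217

open MvPowerSeries

namespace Count

variable {K : Type} [Field K] {r : ℕ}

/-- Series without coefficients of degree below `N`. -/
def high (K : Type) [Field K] (r N : ℕ) : Submodule K (MvPowerSeries (Fin r) K) where
  carrier := {f | ∀ d : Fin r →₀ ℕ, Finsupp.degree d < N → MvPowerSeries.coeff d f = 0}
  add_mem' := fun {a b} ha hb d hd => by simp [ha d hd, hb d hd]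
  zero_mem' := fun d _ => by simp
  smul_mem' := fun c f hf d hd => by simp [hf d hd]

theorem mem_high {N : ℕ} {f : MvPowerSeries (Fin r) K} :
    f ∈ high K r N ↔
      ∀ d : Fin r →₀ ℕ, Finsupp.degree d < N → MvPowerSeries.coeff d f = 0 := Iff.rfl

theorem high_anti {M N : ℕ} (h : M ≤ N) : high K r N ≤ high K r M :=
  fun _ hf d hd => hf d (lt_of_lt_of_le hd h)

/-- A monomial times a series of order at least two has high order. -/
theorem monomial_mul_mem_high {q : MvPowerSeries (Fin r) K} (hq : q ∈ high K r 2)
    (e : Fin r →₀ ℕ) :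
    MvPowerSeries.monomial e (1 : K) * q ∈ high K r (Finsupp.degree e + 2) := by
  classical
  intro d hd
  rw [MvPowerSeries.coeff_monomial_mul]
  split_ifs with h
  · rw [one_mul]
    apply hq
    have h1 : Finsupp.degree e + Finsupp.degree (d - e) = Finsupp.degree d := by
      rw [← map_add, add_tsub_cancel_of_le h]
    omega
  · rfl

/-- Coordinates `U`, at most `δ` of them, completing the linear parts to a spanning set. -/
theorem exists_complement {δ : ℕ} (hδ : δ ≤ r) (L : Fin (r - δ) → Fin r → K)
    (hL : LinearIndependent K L) :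
    ∃ U : Finset (Fin r), U.card ≤ δ ∧
      ∀ x : Fin r → K, ∃ (a : Fin (r - δ) → K) (b : Fin r → K),
        (∀ j, j ∉ U → b j = 0) ∧ x = (∑ i, a i • L i) + b := by
  classical
  let e : Fin r → Fin r → K := fun j => Pi.single j 1
  have hs : LinearIndepOn K id (Set.range L) := (linearIndepOn_id_range_iff hL.injective).2 hL
  obtain ⟨B, hBt, hsB, hspan, hB⟩ :=
    exists_linearIndepOn_extension (v := (id : (Fin r → K) → Fin r → K)) hs
      (Set.subset_union_left (t := Set.range e))
  have htop : (⊤ : Submodule K (Fin r → K)) ≤ Submodule.span K B := by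
    intro x _
    have hx : x = ∑ j, x j • e j := by
      funext i
      simp [e, Finset.sum_apply, Pi.single_apply]
    rw [hx]
    refine Submodule.sum_mem _ fun j _ => Submodule.smul_mem _ _ ?_
    simpa using hspan (show e j ∈ id '' (Set.range L ∪ Set.range e) from
      ⟨e j, Or.inr ⟨j, rfl⟩, rfl⟩)
  let U : Finset (Fin r) := Finset.univ.filter fun j => e j ∈ B ∧ e j ∉ Set.range L
  refine ⟨U, ?_, fun x => ?_⟩
  · have hBli : LinearIndependent K (fun x : B => (x : Fin r → K)) := hB
    have : Finite B := hBli.finite
    have : Fintype B := Fintype.ofFinite B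
    have hcard : Fintype.card B ≤ r := by
      simpa using hBli.fintype_card_le_finrank
    have hinj : Function.Injective
        (Sum.elim (fun i => (⟨L i, hsB ⟨i, rfl⟩⟩ : B))
          (fun j : U => (⟨e j.1, (Finset.mem_filter.1 j.2).2.1⟩ : B))) := by
      refine Function.Injective.sumElim ?_ ?_ ?_
      · intro i i' h
        exact hL.injective (congrArg Subtype.val h)
      · intro j j' h
        apply Subtype.ext
        have h' : e j.1 = e j'.1 := congrArg Subtype.val h
        by_contra hne
        simpa [e, hne] using congrFun h' j.1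
      · intro i j h
        exact (Finset.mem_filter.1 j.2).2.2 ⟨i, congrArg Subtype.val h⟩
    have := (Fintype.card_le_of_injective _ hinj).trans hcard
    simp at this
    omega
  · have hle : Submodule.span K B ≤
        Submodule.span K (Set.range L) ⊔ Submodule.span K (e '' ↑U) := by
      rw [Submodule.span_le]
      intro y hy
      by_cases hyL : y ∈ Set.range L
      · exact Submodule.mem_sup_left (Submodule.subset_span hyL)
      · rcases hBt hy with h | ⟨j, rfl⟩
        · exact absurd h hyL
        · exact Submodule.mem_sup_right (Submodule.subset_span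
            ⟨j, by simpa [U, hy] using fun x hx => hyL ⟨x, hx⟩, rfl⟩)
    obtain ⟨y, hy, z, hz, hyz⟩ := Submodule.mem_sup.1 (hle (htop (Submodule.mem_top (x := x))))
    obtain ⟨a, ha⟩ := (Submodule.mem_span_range_iff_exists_fun K).1 hy
    refine ⟨a, z, fun j hj => ?_, by rw [ha, hyz]⟩
    refine (Submodule.span_induction (p := fun w _ => w j = 0) ?_ rfl ?_ ?_ hz)
    · rintro w ⟨k, hk, rfl⟩
      have : j ≠ k := fun h => hj (h ▸ hk)
      simp [e, this]
    · intro u w _ _ hu hw
      simp [hu, hw]
    · intro c u _ hu
      simp [hu]

/-- A series with vanishing constant term and given linear part. -/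
theorem exists_low_relation {δ : ℕ} (hδ : δ ≤ r) (g : Fin (r - δ) → MvPowerSeries (Fin r) K)
    (hg : ∀ i, MvPowerSeries.constantCoeff (g i) = 0)
    (hL : LinearIndependent K (fun (i : Fin (r - δ)) (j : Fin r) =>
      MvPowerSeries.coeff (Finsupp.single j 1) (g i))) :
    ∃ U : Finset (Fin r), U.card ≤ δ ∧ ∀ t : Fin r,
      ∃ (a : Fin (r - δ) → K) (b : Fin r → K), (∀ j, j ∉ U → b j = 0) ∧
        (∑ i, a i • g i) + (∑ j, b j • MvPowerSeries.X j) - MvPowerSeries.X t ∈ high K r 2 := by
  classical
  obtain ⟨U, hU, hx⟩ := exists_complement hδ _ hL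
  refine ⟨U, hU, fun t => ?_⟩
  obtain ⟨a, b, hb, hab⟩ := hx (Pi.single t 1)
  refine ⟨a, b, hb, fun d hd => ?_⟩
  rcases Nat.eq_zero_or_pos (Finsupp.degree d) with h0 | hpos
  · obtain rfl : d = 0 := (Finsupp.degree_eq_zero_iff d).1 h0
    simp [map_sum, hg]
  · obtain ⟨k, rfl⟩ : ∃ k, Finsupp.single k 1 = d := by
      have hne : d ≠ 0 := by rintro rfl; simp at hpos
      obtain ⟨k, hk⟩ := Finsupp.ne_iff.1 hne
      have hle : Finsupp.single k 1 ≤ d :=
        Finsupp.single_le_iff.2 (by simp at hk; omega)
      refine ⟨k, ?_⟩
      have h1 : Finsupp.degree (Finsupp.single k 1) + Finsupp.degree (d - Finsupp.single k 1) =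
          Finsupp.degree d := by
        rw [← map_add, add_tsub_cancel_of_le hle]
      rw [Finsupp.degree_single] at h1
      have h2 : d - Finsupp.single k 1 = 0 := (Finsupp.degree_eq_zero_iff _).1 (by omega)
      exact le_antisymm hle (tsub_eq_zero_iff_le.1 h2)
    have := congrFun hab k
    simp [Finset.sum_apply, MvPowerSeries.coeff_X, Finsupp.single_left_inj, Pi.single_apply,
      eq_comm] at this ⊢
    rw [← this]
    ring

/-- Every series is, modulo the ideal and high order, a combination of monomials in `U`. -/
theorem span_eq_top {δ : ℕ} (g : Fin (r - δ) → MvPowerSeries (Fin r) K) (U : Finset (Fin r))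
    (hrel : ∀ t : Fin r, ∃ (a : Fin (r - δ) → K) (b : Fin r → K), (∀ j, j ∉ U → b j = 0) ∧
        (∑ i, a i • g i) + (∑ j, b j • MvPowerSeries.X j) - MvPowerSeries.X t ∈ high K r 2)
    (N : ℕ) (S : Submodule K (MvPowerSeries (Fin r) K))
    (hI : (Ideal.span (Set.range g)).restrictScalars K ≤ S) (hH : high K r N ≤ S)
    (hU : ∀ d : Fin r →₀ ℕ, d.support ⊆ U → Finsupp.degree d < N →
      MvPowerSeries.monomial d (1 : K) ∈ S) :
    ∀ f, f ∈ S := by
  classical
  have key : ∀ m, high K r (N - m) ≤ S := by
    intro m
    induction m with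
    | zero => simpa using hH
    | succ m ih =>
      by_cases hm : N ≤ m
      · intro f hf
        exact ih ((high_anti (show N - m ≤ N - (m + 1) by omega)) hf)
      · set k := N - (m + 1) with hk
        have hk1 : N - m = k + 1 := by omega
        rw [hk1] at ih
        -- monomials of degree `k`
        have hmon : ∀ s, ∀ d : Fin r →₀ ℕ, Finsupp.degree d = k →
            (∑ j ∈ Uᶜ, d j) = s → MvPowerSeries.monomial d (1 : K) ∈ S := by
          intro s
          induction s using Nat.strong_induction_on with
          | _ s ihs =>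
            intro d hdk hds
            by_cases hsupp : d.support ⊆ U
            · exact hU d hsupp (by omega)
            · obtain ⟨t, htd, htU⟩ := Finset.not_subset.1 hsupp
              rw [Finsupp.mem_support_iff] at htd
              set d' := d - Finsupp.single t 1 with hd'
              have hdd : d' + Finsupp.single t 1 = d :=
                tsub_add_cancel_of_le (Finsupp.single_le_iff.2 (by omega))
              have hdeg : Finsupp.degree d' + 1 = k := by
                rw [← hdk, ← hdd, map_add, Finsupp.degree_single]
              obtain ⟨a, b, hb, hq⟩ := hrel t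
              have h1 := ih (high_anti (show k + 1 ≤ Finsupp.degree d' + 2 by omega)
                (monomial_mul_mem_high hq d'))
              have h2 : MvPowerSeries.monomial d' (1 : K) * (∑ i, a i • g i) ∈ S := by
                apply hI
                refine Ideal.mul_mem_left _ _ ?_
                refine Ideal.sum_mem _ fun i _ => ?_
                rw [MvPowerSeries.smul_eq_C_mul]
                exact Ideal.mul_mem_left _ _ (Ideal.subset_span ⟨i, rfl⟩)
              have h3 : MvPowerSeries.monomial d' (1 : K) * (∑ j, b j • MvPowerSeries.X j) ∈ S := by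
                rw [Finset.mul_sum]
                refine Submodule.sum_mem _ fun j _ => ?_
                rw [mul_smul_comm]
                by_cases hj : j ∈ U
                · refine Submodule.smul_mem _ _ ?_
                  rw [MvPowerSeries.X, MvPowerSeries.monomial_mul_monomial, one_mul]
                  refine ihs _ ?_ _ (by rw [map_add, Finsupp.degree_single]; omega) rfl
                  have htU' : t ∈ Uᶜ := Finset.mem_compl.2 htU
                  have e1 : ∑ i ∈ Uᶜ, (d' + Finsupp.single j 1 : Fin r →₀ ℕ) i = ∑ i ∈ Uᶜ, d' i := by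
                    refine Finset.sum_congr rfl fun i hi => ?_
                    have : j ≠ i := fun h => (Finset.mem_compl.1 hi) (h ▸ hj)
                    simp [this]
                  have e2 : ∑ i ∈ Uᶜ, d i = ∑ i ∈ Uᶜ, d' i + 1 := by
                    rw [← hdd]
                    simp [Finset.sum_add_distrib, Finsupp.single_apply, htU']
                  omega
                · simp [hb j hj]
              have h4 : MvPowerSeries.monomial d (1 : K) =
                  MvPowerSeries.monomial d' (1 : K) * (∑ i, a i • g i) +
                  MvPowerSeries.monomial d' (1 : K) * (∑ j, b j • MvPowerSeries.X j) -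
                  MvPowerSeries.monomial d' (1 : K) *
                    ((∑ i, a i • g i) + (∑ j, b j • MvPowerSeries.X j) - MvPowerSeries.X t) := by
                rw [MvPowerSeries.X, mul_sub, mul_add, MvPowerSeries.monomial_mul_monomial,
                  one_mul, hdd]
                abel
              rw [h4]
              exact S.sub_mem (S.add_mem h2 h3) h1
        intro f hf
        let A : Finset (Fin r →₀ ℕ) :=
          (Finset.Iic (Finsupp.equivFunOnFinite.symm fun _ : Fin r => k)).filter
            fun d => Finsupp.degree d = k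
        have hsum : ∑ d ∈ A, MvPowerSeries.coeff d f • MvPowerSeries.monomial d (1 : K) ∈ S :=
          Submodule.sum_mem _ fun d hd =>
            Submodule.smul_mem _ _ (hmon _ d (Finset.mem_filter.1 hd).2 rfl)
        have hrest : f - ∑ d ∈ A, MvPowerSeries.coeff d f • MvPowerSeries.monomial d (1 : K) ∈ S := by
          apply ih
          intro c hc
          have hA : c ∈ A ↔ Finsupp.degree c = k := by
            simp only [A, Finset.mem_filter, Finset.mem_Iic, and_iff_right_iff_imp]
            intro h l
            simpa [← h] using Finsupp.le_degree l c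
          simp only [map_sub, map_sum, map_smul, MvPowerSeries.coeff_monomial, smul_eq_mul,
            mul_ite, mul_one, mul_zero, Finset.sum_ite_eq]
          split_ifs with h
          · simp
          · have : Finsupp.degree c < k := by
              have := mt hA.2 h
              omega
            simp [hf c this]
        simpa using S.add_mem hrest hsum
  intro f
  exact key N (fun d hd => by omega)

end Count

theorem count : CountStatement := by
  classical
  intro K _ r δ v J hv hJ g hg hlin
  have hδ : δ ≤ r := by
    have := J.card_le_univ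
    simp at this
    omega
  obtain ⟨U, hU, hrel⟩ := Count.exists_low_relation hδ g hg hlin
  obtain ⟨C, hC1, hC⟩ : ∃ C : ℕ, 1 ≤ C ∧ (∑ l, v l) ≤ (C : ℝ) :=
    ⟨Nat.ceil (∑ l, v l) + 1, by omega, by
      push_cast
      linarith [Nat.le_ceil (∑ l, v l)]⟩
  set M : ℕ := C ^ δ + 1 with hM
  set N : ℕ := M * C with hN
  set I := (Ideal.span (Set.range g)).restrictScalars K
  set Z := I ⊔ Count.high K r N
  -- the monomials in `U` span the quotient
  let monU : (U → Fin N) → MvPowerSeries (Fin r) K ⧸ Z := fun c =>
    Z.mkQ (MvPowerSeries.monomial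
      (Finsupp.equivFunOnFinite.symm fun l => if h : l ∈ U then (c ⟨l, h⟩ : ℕ) else 0) 1)
  have hspan : Submodule.span K (Set.range monU) = ⊤ := by
    rw [eq_top_iff]
    intro q _
    obtain ⟨f, rfl⟩ := Submodule.mkQ_surjective Z q
    refine Count.span_eq_top g U hrel N ((Submodule.span K (Set.range monU)).comap Z.mkQ)
      ?_ ?_ ?_ f
    · intro y hy
      have : Z.mkQ y = 0 := (Submodule.Quotient.mk_eq_zero Z).2 (Submodule.mem_sup_left hy)
      simp [this]
    · intro y hy
      have : Z.mkQ y = 0 := (Submodule.Quotient.mk_eq_zero Z).2 (Submodule.mem_sup_right hy)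
      simp [this]
    · intro d hd hdeg
      apply Submodule.subset_span
      refine ⟨fun l => ⟨d l.1, lt_of_le_of_lt (Finsupp.le_degree l.1 d) hdeg⟩, ?_⟩
      show Z.mkQ _ = Z.mkQ _
      congr 2
      refine congrArg (fun c => MvPowerSeries.monomial c) ?_
      ext l
      by_cases h : l ∈ U
      · simp [h]
      · simp [h, Finsupp.notMem_support_iff.1 fun h' => h (hd h')]
  -- many monomials in `J` of small weight
  let expo : (J → Fin M) → (Fin r →₀ ℕ) := fun c =>
    Finsupp.equivFunOnFinite.symm fun l => if h : l ∈ J then (c ⟨l, h⟩ : ℕ) else 0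
  have hexpo : Function.Injective expo := by
    intro c c' h
    funext l
    apply Fin.ext
    have := DFunLike.congr_fun h l.1
    simpa [expo] using this
  have hwt : ∀ c, wt v (expo c) < (N : ℝ) := by
    intro c
    have h1 : wt v (expo c) ≤ ∑ l, (C : ℝ) ^ δ * v l := by
      unfold wt
      refine Finset.sum_le_sum fun l _ => ?_
      refine mul_le_mul_of_nonneg_right ?_ (le_trans zero_le_one (hv l))
      have : (expo c) l ≤ C ^ δ := by
        simp only [expo, Finsupp.coe_equivFunOnFinite_symm]
        split_ifs with h
        · have := (c ⟨l, h⟩).2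
          omega
        · omega
      exact_mod_cast this
    have h2 : (∑ l, (C : ℝ) ^ δ * v l) ≤ (C : ℝ) ^ δ * C := by
      rw [← Finset.mul_sum]
      exact mul_le_mul_of_nonneg_left hC (by positivity)
    have h3 : (C : ℝ) ^ δ * C < (N : ℝ) := by
      have : C ^ δ * C < N := by rw [hN, hM]; exact Nat.mul_lt_mul_of_pos_right (by omega) (by omega)
      exact_mod_cast this
    linarith
  have hdep : ¬ LinearIndependent K (fun c => Z.mkQ (MvPowerSeries.monomial (expo c) (1 : K))) := by
    intro hli
    have : Module.Finite K (MvPowerSeries (Fin r) K ⧸ Z) :=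
      Module.Finite.of_fg_top ⟨(Set.finite_range monU).toFinset, by simp [hspan]⟩
    have h1 := hli.fintype_card_le_finrank
    have h2 : Module.finrank K (MvPowerSeries (Fin r) K ⧸ Z) ≤ Fintype.card (U → Fin N) := by
      have := finrank_range_le_card (R := K) monU
      rwa [Set.finrank, hspan, finrank_top] at this
    have h3 : M ^ J.card ≤ N ^ U.card := by simpa using h1.trans h2
    have h4 : N ^ U.card ≤ N ^ δ :=
      Nat.pow_le_pow_right (by rw [hN, hM]; positivity) hU
    have h5 : M ^ (δ + 1) ≤ M ^ J.card := Nat.pow_le_pow_right (by omega) (by omega)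
    have h6 : N ^ δ < M ^ (δ + 1) := by
      rw [hN, mul_pow, pow_succ]
      exact Nat.mul_lt_mul_of_pos_left (by omega) (by positivity)
    omega
  obtain ⟨γ, hγ, c₀, hc₀⟩ := Fintype.not_linearIndependent_iff.1 hdep
  set f₀ := ∑ c, γ c • MvPowerSeries.monomial (expo c) (1 : K) with hf₀
  have hmem : f₀ ∈ Z := by
    apply (Submodule.Quotient.mk_eq_zero Z).1
    rw [← Submodule.mkQ_apply, hf₀, map_sum]
    simpa only [map_smul] using hγ
  obtain ⟨f, hf, h, hh, hfh⟩ := Submodule.mem_sup.1 hmem
  have hlow : ∀ d, wt v d < (N : ℝ) → MvPowerSeries.coeff d f = MvPowerSeries.coeff d f₀ := by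
    intro d hd
    have hdeg : Finsupp.degree d < N := by
      have h1 : ((Finsupp.degree d : ℕ) : ℝ) ≤ wt v d := by
        rw [Finsupp.degree_eq_sum, wt]
        push_cast
        exact Finset.sum_le_sum fun l _ => le_mul_of_one_le_right (Nat.cast_nonneg _) (hv l)
      exact_mod_cast lt_of_le_of_lt h1 hd
    rw [← hfh, map_add, hh d hdeg, add_zero]
  refine ⟨N, f, hf, fun d hd hsupp => ?_, expo c₀, hwt c₀, ?_⟩
  · rw [hlow d hd, hf₀, map_sum]
    refine Finset.sum_eq_zero fun c _ => ?_
    rw [map_smul, MvPowerSeries.coeff_monomial, if_neg, smul_zero]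
    rintro rfl
    apply hsupp
    intro l hl
    by_contra hlJ
    simp [expo, hlJ] at hl
  · rw [hlow _ (hwt c₀), hf₀, map_sum]
    rw [Finset.sum_eq_single c₀]
    · simpa [MvPowerSeries.coeff_monomial] using hc₀
    · intro c _ hc
      rw [map_smul, MvPowerSeries.coeff_monomial, if_neg (fun h => hc (hexpo h).symm), smul_zero]
    · simp

end Vale.Agent.P217
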