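/-
P217, EVAL: evaluation of power series at points of a complete nonarchimedean field.
-/
import Vale.Agent.P217.Eval

namespace Vale.Agent.P217

open MvPowerSeries Filter Topology

variable {K : Type*} [NormedField K] {σ : Type*}

/-- The term of index `d` of the series defining `ev f a`. -/
noncomputable def evTerm (f : MvPowerSeries σ K) (a : σ → K) (d : σ →₀ ℕ) : K :=
  MvPowerSeries.coeff d f * d.prod fun i e => a i ^ e

/-- The series defining `ev f a` converges. -/
def Conv (f : MvPowerSeries σ K) (a : σ → K) : Prop :=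
  Summable (evTerm f a)

lemma ev_eq_tsum (f : MvPowerSeries σ K) (a : σ → K) : ev f a = ∑' d, evTerm f a d := rfl

lemma evTerm_zero_index (f : MvPowerSeries σ K) (a : σ → K) :
    evTerm f a 0 = MvPowerSeries.constantCoeff f := by simp [evTerm]

lemma norm_monomial_le {a : σ → K} {ρ : ℝ} (h : ∀ i, ‖a i‖ ≤ ρ) (d : σ →₀ ℕ) :
    ‖d.prod fun i e => a i ^ e‖ ≤ ρ ^ d.degree := by
  rw [Finsupp.prod, norm_prod, Finsupp.degree_apply, ← Finset.prod_pow_eq_pow_sum]
  exact Finset.prod_le_prod (fun i _ => norm_nonneg _) fun i _ => by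
    rw [norm_pow]; exact pow_le_pow_left₀ (norm_nonneg _) (h i) _

lemma norm_monomial_le_one {a : σ → K} (h : ∀ i, ‖a i‖ ≤ 1) (d : σ →₀ ℕ) :
    ‖d.prod fun i e => a i ^ e‖ ≤ 1 := by simpa using norm_monomial_le h d

/-- A uniform bound `ρ < 1` for finitely many small numbers. -/
lemma exists_radius [Finite σ] {a : σ → K} (ha : ∀ i, ‖a i‖ < 1) :
    ∃ ρ : ℝ, 0 < ρ ∧ ρ < 1 ∧ ∀ i, ‖a i‖ ≤ ρ := by
  classical
  have := Fintype.ofFinite σ
  set S : Finset ℝ := insert (1 / 2 : ℝ) (Finset.univ.image fun i => ‖a i‖) with hS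
  have hne : S.Nonempty := Finset.insert_nonempty _ _
  have hh : (1 / 2 : ℝ) ∈ S := Finset.mem_insert_self _ _
  refine ⟨S.max' hne, lt_of_lt_of_le (by norm_num) (S.le_max' _ hh),
    (Finset.max'_lt_iff _ hne).2 fun y hy => ?_, fun i => S.le_max' _
      (Finset.mem_insert_of_mem (Finset.mem_image_of_mem (fun i => ‖a i‖) (Finset.mem_univ i)))⟩
  rcases Finset.mem_insert.1 hy with rfl | hy
  · norm_num
  · obtain ⟨i, -, rfl⟩ := Finset.mem_image.1 hy
    exact ha i

lemma finite_degree_lt [Finite σ] (N : ℕ) : {d : σ →₀ ℕ | d.degree < N}.Finite := by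
  classical
  have := Fintype.ofFinite σ
  refine Set.Finite.subset
    (Set.finite_Iic (Finsupp.equivFunOnFinite.symm fun _ : σ => N)) fun d hd i => ?_
  have h1 : d i ≤ d.degree := by
    rw [Finsupp.degree_eq_sum]
    exact Finset.single_le_sum (fun j _ => Nat.zero_le (d j)) (Finset.mem_univ i)
  simpa using h1.trans hd.le

/-- A geometric bound on the terms gives convergence to zero along the cofinite filter. -/
lemma tendsto_cofinite_of_geometric [Finite σ] {E : Type*} [SeminormedAddCommGroup E]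
    {F : (σ →₀ ℕ) → E} {C ρ : ℝ} (hρ0 : 0 ≤ ρ) (hρ : ρ < 1)
    (hF : ∀ d, ‖F d‖ ≤ C * ρ ^ d.degree) : Tendsto F cofinite (𝓝 0) := by
  rw [Metric.tendsto_nhds]
  intro ε hε
  have h1 : Tendsto (fun N : ℕ => C * ρ ^ N) atTop (𝓝 0) := by
    simpa using (tendsto_pow_atTop_nhds_zero_of_lt_one hρ0 hρ).const_mul C
  obtain ⟨N, hN⟩ := eventually_atTop.1 ((tendsto_order.1 h1).2 ε hε)
  rw [eventually_cofinite]
  refine (finite_degree_lt N).subset fun d hd => ?_
  by_contra hc
  exact hd (by
    rw [dist_zero_right]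
    exact lt_of_le_of_lt (hF d) (hN _ (not_lt.1 hc)))

variable [IsUltrametricDist K]

/-- A bound on all the terms bounds the sum. -/
lemma norm_tsum_le_of_forall {ι : Type*} {F : ι → K} {B : ℝ} (hB : 0 ≤ B)
    (h : ∀ i, ‖F i‖ ≤ B) : ‖∑' i, F i‖ ≤ B := by
  by_cases hs : Summable F
  · refine le_of_tendsto (hs.hasSum.norm) (Eventually.of_forall fun s => ?_)
    exact IsUltrametricDist.norm_sum_le_of_forall_le_of_nonneg hB fun i _ => h i
  · rw [tsum_eq_zero_of_not_summable hs, norm_zero]; exact hB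

lemma norm_ev_le {f : MvPowerSeries σ K} {a : σ → K} {B : ℝ} (hB : 0 ≤ B)
    (h : ∀ d, ‖evTerm f a d‖ ≤ B) : ‖ev f a‖ ≤ B :=
  norm_tsum_le_of_forall hB h

variable [CompleteSpace K]

lemma summable_of_tendsto_zero {ι : Type*} {F : ι → K} (h : Tendsto F cofinite (𝓝 0)) :
    Summable F :=
  NonarchimedeanAddGroup.summable_of_tendsto_cofinite_zero h

/-- Coefficients growing at most geometrically give convergence on a small polydisc. -/
lemma conv_of_bound [Finite σ] {f : MvPowerSeries σ K} {a : σ → K} {C R ρ : ℝ}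
    (hR : 0 ≤ R) (hρ0 : 0 ≤ ρ) (hRρ : R * ρ < 1)
    (hf : ∀ d, ‖MvPowerSeries.coeff d f‖ ≤ C * R ^ d.degree) (ha : ∀ i, ‖a i‖ ≤ ρ) :
    Conv f a := by
  refine summable_of_tendsto_zero
    (tendsto_cofinite_of_geometric (C := C) (mul_nonneg hR hρ0) hRρ fun d => ?_)
  rw [evTerm, norm_mul, mul_pow, ← mul_assoc]
  exact mul_le_mul (hf d) (norm_monomial_le ha d) (norm_nonneg _) ((norm_nonneg _).trans (hf d))

lemma conv_of_integral [Finite σ] {f : MvPowerSeries σ K} {a : σ → K} (hf : IntegralSeries f)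
    (ha : ∀ i, ‖a i‖ < 1) : Conv f a := by
  obtain ⟨ρ, h0, h1, h2⟩ := exists_radius ha
  exact conv_of_bound (C := 1) (R := 1) zero_le_one h0.le (by linarith)
    (fun d => by simpa using hf d) h2

/-! ### Algebra of evaluations -/

omit [IsUltrametricDist K] [CompleteSpace K] in
lemma Conv.add {f g : MvPowerSeries σ K} {a : σ → K} (hf : Conv f a) (hg : Conv g a) :
    Conv (f + g) a :=
  (Summable.add hf hg).congr fun d => by simp [evTerm, add_mul]

omit [IsUltrametricDist K] [CompleteSpace K] in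
lemma ev_add {f g : MvPowerSeries σ K} {a : σ → K} (hf : Conv f a) (hg : Conv g a) :
    ev (f + g) a = ev f a + ev g a := by
  rw [ev_eq_tsum, ev_eq_tsum f, ev_eq_tsum g, ← hf.tsum_add hg]
  exact tsum_congr fun d => by simp [evTerm, add_mul]

omit [IsUltrametricDist K] [CompleteSpace K] in
lemma Conv.neg {f : MvPowerSeries σ K} {a : σ → K} (hf : Conv f a) : Conv (-f) a :=
  (Summable.neg hf).congr fun d => by simp [evTerm]

omit [IsUltrametricDist K] [CompleteSpace K] in
lemma ev_neg (f : MvPowerSeries σ K) (a : σ → K) : ev (-f) a = -ev f a := by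
  rw [ev_eq_tsum, ev_eq_tsum f, ← tsum_neg]
  exact tsum_congr fun d => by simp [evTerm]

omit [IsUltrametricDist K] [CompleteSpace K] in
lemma Conv.sub {f g : MvPowerSeries σ K} {a : σ → K} (hf : Conv f a) (hg : Conv g a) :
    Conv (f - g) a := by
  rw [sub_eq_add_neg]; exact hf.add hg.neg

omit [IsUltrametricDist K] [CompleteSpace K] in
lemma ev_sub {f g : MvPowerSeries σ K} {a : σ → K} (hf : Conv f a) (hg : Conv g a) :
    ev (f - g) a = ev f a - ev g a := by
  rw [sub_eq_add_neg, ev_add hf hg.neg, ev_neg, sub_eq_add_neg]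

omit [IsUltrametricDist K] [CompleteSpace K] in
lemma Conv.C_mul {f : MvPowerSeries σ K} {a : σ → K} (hf : Conv f a) (c : K) :
    Conv (MvPowerSeries.C c * f) a :=
  (Summable.mul_left c hf).congr fun d => by simp [evTerm, mul_assoc]

omit [IsUltrametricDist K] [CompleteSpace K] in
lemma ev_C_mul (c : K) (f : MvPowerSeries σ K) (a : σ → K) :
    ev (MvPowerSeries.C c * f) a = c * ev f a := by
  rw [ev_eq_tsum, ev_eq_tsum f, ← tsum_mul_left]
  exact tsum_congr fun d => by simp [evTerm, mul_assoc]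

omit [IsUltrametricDist K] [CompleteSpace K] in
lemma conv_coe (q : MvPolynomial σ K) (a : σ → K) : Conv (q : MvPowerSeries σ K) a :=
  summable_of_ne_finset_zero (s := q.support) fun d hd => by
    simp [evTerm, MvPolynomial.notMem_support_iff.1 hd]

omit [IsUltrametricDist K] [CompleteSpace K] in
lemma ev_coe (q : MvPolynomial σ K) (a : σ → K) :
    ev (q : MvPowerSeries σ K) a = MvPolynomial.eval a q := by
  rw [ev_eq_tsum, tsum_eq_sum (s := q.support) fun d hd => by
    simp [evTerm, MvPolynomial.notMem_support_iff.1 hd], MvPolynomial.eval_eq]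
  exact Finset.sum_congr rfl fun d _ => by simp [evTerm, Finsupp.prod]

omit [IsUltrametricDist K] [CompleteSpace K] in
lemma ev_C (c : K) (a : σ → K) : ev (MvPowerSeries.C c : MvPowerSeries σ K) a = c := by
  rw [← MvPolynomial.coe_C, ev_coe, MvPolynomial.eval_C]

omit [IsUltrametricDist K] [CompleteSpace K] in
lemma ev_one (a : σ → K) : ev (1 : MvPowerSeries σ K) a = 1 := by
  simpa using ev_C (1 : K) a

omit [IsUltrametricDist K] [CompleteSpace K] in
lemma ev_zero (a : σ → K) : ev (0 : MvPowerSeries σ K) a = 0 := by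
  simpa using ev_C (0 : K) a

omit [IsUltrametricDist K] [CompleteSpace K] in
lemma ev_X (i : σ) (a : σ → K) : ev (MvPowerSeries.X i : MvPowerSeries σ K) a = a i := by
  rw [← MvPolynomial.coe_X, ev_coe, MvPolynomial.eval_X]

omit [IsUltrametricDist K] [CompleteSpace K] in
lemma conv_X (i : σ) (a : σ → K) : Conv (MvPowerSeries.X i : MvPowerSeries σ K) a := by
  rw [← MvPolynomial.coe_X]; exact conv_coe _ a

omit [IsUltrametricDist K] [CompleteSpace K] in
lemma conv_C (c : K) (a : σ → K) : Conv (MvPowerSeries.C c : MvPowerSeries σ K) a := by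
  rw [← MvPolynomial.coe_C]; exact conv_coe _ a

omit [IsUltrametricDist K] [CompleteSpace K] in
lemma ev_monomial (d : σ →₀ ℕ) (c : K) (a : σ → K) :
    ev (MvPowerSeries.monomial d c) a = c * d.prod fun i e => a i ^ e := by
  rw [← MvPolynomial.coe_monomial, ev_coe, MvPolynomial.eval_monomial]

omit [IsUltrametricDist K] [CompleteSpace K] in
lemma ev_apply_zero (f : MvPowerSeries σ K) :
    ev f (fun _ => 0) = MvPowerSeries.constantCoeff f := by
  rw [ev_eq_tsum, tsum_eq_single 0, evTerm_zero_index]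
  intro d hd
  obtain ⟨i, hi⟩ := Finsupp.ne_iff.1 hd
  have hi' : d i ≠ 0 := by simpa using hi
  rw [evTerm, Finsupp.prod, Finset.prod_eq_zero (Finsupp.mem_support_iff.2 hi') (zero_pow hi'),
    mul_zero]

lemma conv_mul_and_ev_mul {f g : MvPowerSeries σ K} {a : σ → K} (hf : Conv f a)
    (hg : Conv g a) : Conv (f * g) a ∧ ev (f * g) a = ev f a * ev g a := by
  classical
  have : NonarchimedeanRing K :=
    { is_nonarchimedean := NonarchimedeanAddGroup.is_nonarchimedean }
  have hprod : HasSum (fun x : (σ →₀ ℕ) × (σ →₀ ℕ) => evTerm f a x.1 * evTerm g a x.2)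
      (ev f a * ev g a) := hf.hasSum.mul_of_nonarchimedean hg.hasSum
  have h2 := hprod.tsum_fiberwise fun x => x.1 + x.2
  have e : ∀ d : σ →₀ ℕ,
      ∑' x : (fun x : (σ →₀ ℕ) × (σ →₀ ℕ) => x.1 + x.2) ⁻¹' {d},
        evTerm f a x.1.1 * evTerm g a x.1.2 = evTerm (f * g) a d := by
    intro d
    have hs : ((fun x : (σ →₀ ℕ) × (σ →₀ ℕ) => x.1 + x.2) ⁻¹' {d}) =
        ↑(Finset.HasAntidiagonal.antidiagonal d) := by
      ext x; simp [Finset.HasAntidiagonal.mem_antidiagonal]
    rw [hs]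
    refine (Finset.tsum_subtype' (Finset.HasAntidiagonal.antidiagonal d)
      (fun x : (σ →₀ ℕ) × (σ →₀ ℕ) => evTerm f a x.1 * evTerm g a x.2)).trans ?_
    conv_rhs => rw [evTerm, MvPowerSeries.coeff_mul, Finset.sum_mul]
    refine Finset.sum_congr rfl fun x hx => ?_
    rw [← Finset.HasAntidiagonal.mem_antidiagonal.1 hx, Finsupp.prod_add_index'
      (h := fun i e => a i ^ e) (fun i => pow_zero _) (fun i m n => pow_add _ _ _)]
    simp only [evTerm]
    ring
  simp only [e] at h2
  exact ⟨h2.summable, h2.tsum_eq⟩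

lemma Conv.mul {f g : MvPowerSeries σ K} {a : σ → K} (hf : Conv f a) (hg : Conv g a) :
    Conv (f * g) a := (conv_mul_and_ev_mul hf hg).1

lemma ev_mul {f g : MvPowerSeries σ K} {a : σ → K} (hf : Conv f a) (hg : Conv g a) :
    ev (f * g) a = ev f a * ev g a := (conv_mul_and_ev_mul hf hg).2

lemma Conv.pow {f : MvPowerSeries σ K} {a : σ → K} (hf : Conv f a) :
    ∀ k : ℕ, Conv (f ^ k) a
  | 0 => by rw [pow_zero, ← map_one MvPowerSeries.C]; exact conv_C 1 a
  | k + 1 => by rw [pow_succ]; exact (Conv.pow hf k).mul hf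

lemma ev_pow {f : MvPowerSeries σ K} {a : σ → K} (hf : Conv f a) (k : ℕ) :
    ev (f ^ k) a = ev f a ^ k := by
  induction k with
  | zero => rw [pow_zero, pow_zero, ev_one]
  | succ k ih => rw [pow_succ, pow_succ, ev_mul (hf.pow k) hf, ih]

lemma conv_prod_and_ev_prod {ι : Type*} (s : Finset ι) {f : ι → MvPowerSeries σ K} {a : σ → K}
    (hf : ∀ i ∈ s, Conv (f i) a) :
    Conv (∏ i ∈ s, f i) a ∧ ev (∏ i ∈ s, f i) a = ∏ i ∈ s, ev (f i) a := by
  classical
  induction s using Finset.induction with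
  | empty =>
    rw [Finset.prod_empty, Finset.prod_empty, ← map_one MvPowerSeries.C]
    exact ⟨conv_C 1 a, ev_C 1 a⟩
  | insert i s hi ih =>
    obtain ⟨h1, h2⟩ := ih fun j hj => hf j (Finset.mem_insert_of_mem hj)
    rw [Finset.prod_insert hi, Finset.prod_insert hi]
    exact ⟨(hf i (Finset.mem_insert_self i s)).mul h1,
      by rw [ev_mul (hf i (Finset.mem_insert_self i s)) h1, h2]⟩

omit [IsUltrametricDist K] [CompleteSpace K] in
lemma conv_sum_and_ev_sum {ι : Type*} (s : Finset ι) {f : ι → MvPowerSeries σ K} {a : σ → K}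
    (hf : ∀ i ∈ s, Conv (f i) a) :
    Conv (∑ i ∈ s, f i) a ∧ ev (∑ i ∈ s, f i) a = ∑ i ∈ s, ev (f i) a := by
  classical
  induction s using Finset.induction with
  | empty =>
    rw [Finset.sum_empty, Finset.sum_empty, ← map_zero MvPowerSeries.C]
    exact ⟨conv_C 0 a, ev_C 0 a⟩
  | insert i s hi ih =>
    obtain ⟨h1, h2⟩ := ih fun j hj => hf j (Finset.mem_insert_of_mem hj)
    rw [Finset.sum_insert hi, Finset.sum_insert hi]
    exact ⟨(hf i (Finset.mem_insert_self i s)).add h1,
      by rw [ev_add (hf i (Finset.mem_insert_self i s)) h1, h2]⟩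

end Vale.Agent.P217
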