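/-
P217, EVAL: norm estimates for evaluations and series with integral coefficients.
-/
import Vale.Agent.P217.EvalLemmas

namespace Vale.Agent.P217

open MvPowerSeries Filter Topology

variable {K : Type*} [NormedField K] {σ : Type*}

/-! ### Integral series -/

lemma IntegralSeries.of_C {c : K} (hc : ‖c‖ ≤ 1) :
    IntegralSeries (MvPowerSeries.C c : MvPowerSeries σ K) := by
  classical
  intro d; rw [MvPowerSeries.coeff_C]; split <;> simp [hc]

lemma IntegralSeries.one : IntegralSeries (1 : MvPowerSeries σ K) := by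
  simpa using IntegralSeries.of_C (σ := σ) (c := (1 : K)) (by simp)

lemma IntegralSeries.zero : IntegralSeries (0 : MvPowerSeries σ K) := fun d => by simp

lemma IntegralSeries.X (i : σ) : IntegralSeries (MvPowerSeries.X i : MvPowerSeries σ K) := by
  classical
  intro d; rw [MvPowerSeries.coeff_X]; split <;> simp

lemma IntegralSeries.neg {f : MvPowerSeries σ K} (hf : IntegralSeries f) : IntegralSeries (-f) :=
  fun d => by simpa using hf d

lemma IntegralSeries.map {R : Type*} [CommRing R] (x : R →+* K) (hx : ∀ a, ‖x a‖ ≤ 1)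
    (f : MvPowerSeries σ R) : IntegralSeries (MvPowerSeries.map x f) := fun d => by
  rw [MvPowerSeries.coeff_map]; exact hx _

variable [IsUltrametricDist K]

lemma IntegralSeries.add {f g : MvPowerSeries σ K} (hf : IntegralSeries f) (hg : IntegralSeries g) :
    IntegralSeries (f + g) := fun d => by
  rw [map_add]; exact (IsUltrametricDist.norm_add_le_max _ _).trans (max_le (hf d) (hg d))

lemma IntegralSeries.sub {f g : MvPowerSeries σ K} (hf : IntegralSeries f) (hg : IntegralSeries g) :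
    IntegralSeries (f - g) := by rw [sub_eq_add_neg]; exact hf.add hg.neg

lemma IntegralSeries.mul {f g : MvPowerSeries σ K} (hf : IntegralSeries f) (hg : IntegralSeries g) :
    IntegralSeries (f * g) := by
  classical
  intro d
  rw [MvPowerSeries.coeff_mul]
  refine IsUltrametricDist.norm_sum_le_of_forall_le_of_nonneg zero_le_one fun x _ => ?_
  rw [norm_mul]
  exact mul_le_one₀ (hf _) (norm_nonneg _) (hg _)

lemma IntegralSeries.pow {f : MvPowerSeries σ K} (hf : IntegralSeries f) (k : ℕ) :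
    IntegralSeries (f ^ k) := by
  induction k with
  | zero => rw [pow_zero]; exact .one
  | succ k ih => rw [pow_succ]; exact ih.mul hf

lemma IntegralSeries.prod {ι : Type*} (s : Finset ι) {f : ι → MvPowerSeries σ K}
    (hf : ∀ i ∈ s, IntegralSeries (f i)) : IntegralSeries (∏ i ∈ s, f i) := by
  classical
  induction s using Finset.induction with
  | empty => rw [Finset.prod_empty]; exact .one
  | insert i s hi ih =>
    rw [Finset.prod_insert hi]
    exact (hf i (Finset.mem_insert_self i s)).mul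
      (ih fun j hj => hf j (Finset.mem_insert_of_mem hj))

lemma norm_finsum_le {ι : Type*} {F : ι → K} {B : ℝ} (hB : 0 ≤ B) (h : ∀ i, ‖F i‖ ≤ B) :
    ‖∑ᶠ i, F i‖ ≤ B := by
  by_cases hs : (Function.support F).Finite
  · rw [finsum_eq_sum F hs]
    exact IsUltrametricDist.norm_sum_le_of_forall_le_of_nonneg hB fun i _ => h i
  · rw [finsum_of_infinite_support hs, norm_zero]; exact hB

lemma IntegralSeries.subst {τ : Type*} [Finite σ] {f : MvPowerSeries σ K}
    (hf : IntegralSeries f) {b : σ → MvPowerSeries τ K} (hb : ∀ i, IntegralSeries (b i))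
    (hs : MvPowerSeries.HasSubst b) : IntegralSeries (MvPowerSeries.subst b f) := by
  classical
  have := Fintype.ofFinite σ
  intro e
  rw [MvPowerSeries.coeff_subst hs]
  refine norm_finsum_le zero_le_one fun d => ?_
  rw [smul_eq_mul, norm_mul, Finsupp.prod_fintype _ _ (fun i => pow_zero _)]
  exact mul_le_one₀ (hf d) (norm_nonneg _)
    (IntegralSeries.prod _ (fun i _ => (hb i).pow (d i)) e)

/-! ### Bounds on values -/

lemma norm_evTerm_le {f : MvPowerSeries σ K} {a : σ → K} {C ρ : ℝ}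
    (hf : ∀ d, ‖MvPowerSeries.coeff d f‖ ≤ C) (ha : ∀ i, ‖a i‖ ≤ ρ) (d : σ →₀ ℕ) :
    ‖evTerm f a d‖ ≤ C * ρ ^ d.degree := by
  rw [evTerm, norm_mul]
  exact mul_le_mul (hf d) (norm_monomial_le ha d) (norm_nonneg _) ((norm_nonneg _).trans (hf d))

lemma norm_ev_le_one {f : MvPowerSeries σ K} {a : σ → K} (hf : IntegralSeries f)
    (ha : ∀ i, ‖a i‖ ≤ 1) : ‖ev f a‖ ≤ 1 :=
  norm_ev_le zero_le_one fun d => by simpa using norm_evTerm_le hf ha d

/-- Coefficients bounded by `η` give values bounded by `η`. -/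
lemma norm_ev_le_of_coeff {f : MvPowerSeries σ K} {a : σ → K} {η : ℝ} (hη : 0 ≤ η)
    (hf : ∀ d, ‖MvPowerSeries.coeff d f‖ ≤ η) (ha : ∀ i, ‖a i‖ ≤ 1) : ‖ev f a‖ ≤ η :=
  norm_ev_le hη fun d => by simpa using norm_evTerm_le hf ha d

/-- An integral series without monomials of degree below `D` is at most `ρ ^ D`. -/
lemma norm_ev_le_pow {f : MvPowerSeries σ K} {a : σ → K} {ρ : ℝ} {D : ℕ} (hf : IntegralSeries f)
    (h0 : ∀ d, d.degree < D → MvPowerSeries.coeff d f = 0) (hρ0 : 0 ≤ ρ) (hρ1 : ρ ≤ 1)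
    (ha : ∀ i, ‖a i‖ ≤ ρ) : ‖ev f a‖ ≤ ρ ^ D := by
  refine norm_ev_le (pow_nonneg hρ0 D) fun d => ?_
  rcases lt_or_ge d.degree D with h | h
  · simp [evTerm, h0 d h, pow_nonneg hρ0 D]
  · exact (norm_evTerm_le hf ha d).trans (by rw [one_mul]; exact pow_le_pow_of_le_one hρ0 hρ1 h)

lemma norm_ev_le_of_constantCoeff {f : MvPowerSeries σ K} {a : σ → K} {ρ : ℝ}
    (hf : IntegralSeries f) (h0 : MvPowerSeries.constantCoeff f = 0) (hρ0 : 0 ≤ ρ) (hρ1 : ρ ≤ 1)
    (ha : ∀ i, ‖a i‖ ≤ ρ) : ‖ev f a‖ ≤ ρ := by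
  have := norm_ev_le_pow (D := 1) hf (fun d hd => by
    obtain rfl : d = 0 := by simpa [Nat.lt_one_iff, Finsupp.degree_eq_zero_iff] using hd
    exact h0) hρ0 hρ1 ha
  simpa using this

lemma norm_ev_lt_one [Finite σ] {f : MvPowerSeries σ K} {a : σ → K} (hf : IntegralSeries f)
    (h0 : MvPowerSeries.constantCoeff f = 0) (ha : ∀ i, ‖a i‖ < 1) : ‖ev f a‖ < 1 := by
  obtain ⟨ρ, hρ0, hρ1, hρ⟩ := exists_radius ha
  exact lt_of_le_of_lt (norm_ev_le_of_constantCoeff hf h0 hρ0.le hρ1.le hρ) hρ1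

lemma norm_mul_sub_mul_le {x y x' y' : K} {ρ : ℝ} (hρ : 0 ≤ ρ) (hx' : ‖x'‖ ≤ 1) (hy : ‖y‖ ≤ 1)
    (h1 : ‖x - x'‖ ≤ ρ) (h2 : ‖y - y'‖ ≤ ρ) : ‖x * y - x' * y'‖ ≤ ρ := by
  have e : x * y - x' * y' = (x - x') * y + x' * (y - y') := by ring
  rw [e]
  refine (IsUltrametricDist.norm_add_le_max _ _).trans (max_le ?_ ?_) <;> rw [norm_mul]
  · calc _ ≤ ρ * 1 := mul_le_mul h1 hy (norm_nonneg _) hρ
      _ = ρ := mul_one _
  · calc _ ≤ 1 * ρ := mul_le_mul hx' h2 (norm_nonneg _) zero_le_one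
      _ = ρ := one_mul _

lemma norm_monomial_sub_le {a b : σ → K} {ρ : ℝ} (hρ : 0 ≤ ρ) (ha : ∀ i, ‖a i‖ ≤ 1)
    (hb : ∀ i, ‖b i‖ ≤ 1) (h : ∀ i, ‖a i - b i‖ ≤ ρ) (d : σ →₀ ℕ) :
    ‖(d.prod fun i e => a i ^ e) - d.prod fun i e => b i ^ e‖ ≤ ρ := by
  have hpow : ∀ (i : σ) (k : ℕ), ‖a i ^ k - b i ^ k‖ ≤ ρ := by
    intro i k
    induction k with
    | zero => simp [hρ]
    | succ k ih =>
      rw [pow_succ, pow_succ]
      exact norm_mul_sub_mul_le hρ (by rw [norm_pow]; exact pow_le_one₀ (norm_nonneg _) (hb i))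
        (ha i) ih (h i)
  simp only [Finsupp.prod]
  generalize d.support = s
  classical
  induction s using Finset.induction with
  | empty => simp [hρ]
  | insert i s hi ih =>
    rw [Finset.prod_insert hi, Finset.prod_insert hi]
    refine norm_mul_sub_mul_le hρ (by rw [norm_pow]; exact pow_le_one₀ (norm_nonneg _) (hb i)) ?_
      (hpow i _) ih
    rw [norm_prod]
    exact Finset.prod_le_one (fun j _ => norm_nonneg _) fun j _ => by
      rw [norm_pow]; exact pow_le_one₀ (norm_nonneg _) (ha j)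

variable [CompleteSpace K]

/-- Evaluation of an integral series is 1-Lipschitz on the open unit polydisc. -/
lemma norm_ev_sub_ev_le [Finite σ] {f : MvPowerSeries σ K} {a b : σ → K} {ρ : ℝ}
    (hf : IntegralSeries f) (ha : ∀ i, ‖a i‖ < 1) (hb : ∀ i, ‖b i‖ < 1) (hρ : 0 ≤ ρ)
    (h : ∀ i, ‖a i - b i‖ ≤ ρ) : ‖ev f a - ev f b‖ ≤ ρ := by
  rw [ev_eq_tsum, ev_eq_tsum, ← (conv_of_integral hf ha).tsum_sub (conv_of_integral hf hb)]
  refine norm_tsum_le_of_forall hρ fun d => ?_
  rw [evTerm, evTerm, ← mul_sub, norm_mul]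
  calc _ ≤ 1 * ρ := mul_le_mul (hf d)
        (norm_monomial_sub_le hρ (fun i => (ha i).le) (fun i => (hb i).le) h d)
        (norm_nonneg _) zero_le_one
    _ = ρ := one_mul _

/-- Series with coefficients `η`-close have `η`-close values. -/
lemma norm_ev_sub_ev_le_of_coeff [Finite σ] {f g : MvPowerSeries σ K} {a : σ → K} {η : ℝ}
    (hf : IntegralSeries f) (hg : IntegralSeries g) (hη : 0 ≤ η) (ha : ∀ i, ‖a i‖ < 1)
    (h : ∀ d, ‖MvPowerSeries.coeff d f - MvPowerSeries.coeff d g‖ ≤ η) :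
    ‖ev f a - ev g a‖ ≤ η := by
  rw [← ev_sub (conv_of_integral hf ha) (conv_of_integral hg ha)]
  exact norm_ev_le_of_coeff hη (fun d => by simpa using h d) fun i => (ha i).le

end Vale.Agent.P217
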