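/-
P217, EVAL: evaluation commutes with substitution.
-/
import Vale.Agent.P217.EvalLemmasBounds

namespace Vale.Agent.P217

open Filter Topology

variable {K : Type*} [NormedField K] [IsUltrametricDist K] {σ τ : Type*}

lemma finite_degree_pair [Finite σ] [Finite τ] (N : ℕ) :
    {x : (σ →₀ ℕ) × (τ →₀ ℕ) | x.1.degree < N ∧ x.2.degree < N}.Finite :=
  ((finite_degree_lt N).prod (finite_degree_lt N)).subset fun _ hx => hx

lemma coeff_pow_bound {b : MvPowerSeries τ K} {B S : ℝ} (hB : 0 ≤ B) (hS : 0 ≤ S)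
    (hb : ∀ e, ‖MvPowerSeries.coeff e b‖ ≤ B * S ^ e.degree) (k : ℕ) (e : τ →₀ ℕ) :
    ‖MvPowerSeries.coeff e (b ^ k)‖ ≤ B ^ k * S ^ e.degree := by
  classical
  induction k generalizing e with
  | zero =>
    rw [pow_zero, MvPowerSeries.coeff_one]
    split_ifs with h <;> simp [h, pow_nonneg hS]
  | succ k ih =>
    rw [pow_succ, MvPowerSeries.coeff_mul]
    refine IsUltrametricDist.norm_sum_le_of_forall_le_of_nonneg
      (mul_nonneg (pow_nonneg hB _) (pow_nonneg hS _)) fun x hx => ?_
    rw [← Finset.HasAntidiagonal.mem_antidiagonal.1 hx, map_add, pow_add, norm_mul]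
    calc _ ≤ (B ^ k * S ^ x.1.degree) * (B * S ^ x.2.degree) :=
          mul_le_mul (ih x.1) (hb x.2) (norm_nonneg _) (mul_nonneg (pow_nonneg hB _) (pow_nonneg hS _))
      _ = _ := by ring

lemma coeff_prod_bound {ι : Type*} {b : ι → MvPowerSeries τ K} {B S : ℝ} (hB : 0 ≤ B) (hS : 0 ≤ S)
    (hb : ∀ i e, ‖MvPowerSeries.coeff e (b i)‖ ≤ B * S ^ e.degree) (s : Finset ι) (k : ι → ℕ)
    (e : τ →₀ ℕ) :
    ‖MvPowerSeries.coeff e (∏ i ∈ s, b i ^ k i)‖ ≤ B ^ (∑ i ∈ s, k i) * S ^ e.degree := by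
  classical
  induction s using Finset.induction generalizing e with
  | empty =>
    rw [Finset.prod_empty, MvPowerSeries.coeff_one, Finset.sum_empty]
    split_ifs with h <;> simp [h, pow_nonneg hS]
  | insert i s hi ih =>
    rw [Finset.prod_insert hi, Finset.sum_insert hi, MvPowerSeries.coeff_mul]
    refine IsUltrametricDist.norm_sum_le_of_forall_le_of_nonneg
      (mul_nonneg (pow_nonneg hB _) (pow_nonneg hS _)) fun x hx => ?_
    rw [← Finset.HasAntidiagonal.mem_antidiagonal.1 hx, map_add, pow_add, pow_add, norm_mul]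
    calc _ ≤ (B ^ k i * S ^ x.1.degree) * (B ^ (∑ j ∈ s, k j) * S ^ x.2.degree) :=
          mul_le_mul (coeff_pow_bound hB hS (hb i) (k i) x.1) (ih x.2) (norm_nonneg _)
            (mul_nonneg (pow_nonneg hB _) (pow_nonneg hS _))
      _ = _ := by ring

omit [IsUltrametricDist K] in
lemma coeff_prod_eq_zero {ι : Type*} {b : ι → MvPowerSeries τ K}
    (hb0 : ∀ i, MvPowerSeries.constantCoeff (b i) = 0) (s : Finset ι) (k : ι → ℕ) {e : τ →₀ ℕ}
    (he : e.degree < ∑ i ∈ s, k i) : MvPowerSeries.coeff e (∏ i ∈ s, b i ^ k i) = 0 := by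
  classical
  refine MvPowerSeries.coeff_of_lt_order (lt_of_lt_of_le (Nat.cast_lt.2 he) ?_)
  induction s using Finset.induction with
  | empty => simp
  | insert i s hi ih =>
    rw [Finset.prod_insert hi, Finset.sum_insert hi, Nat.cast_add]
    refine le_trans ?_ MvPowerSeries.le_order_mul
    by_cases h0 : e.degree < ∑ j ∈ s, k j
    · exact add_le_add (MvPowerSeries.le_order_pow_of_constantCoeff_eq_zero _ (hb0 i)) (ih h0)
    · refine add_le_add (MvPowerSeries.le_order_pow_of_constantCoeff_eq_zero _ (hb0 i)) ?_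
      clear ih h0 he hi
      induction s using Finset.induction with
      | empty => simp
      | insert j t hj ih =>
        rw [Finset.prod_insert hj, Finset.sum_insert hj, Nat.cast_add]
        exact le_trans (add_le_add (MvPowerSeries.le_order_pow_of_constantCoeff_eq_zero _ (hb0 j)) ih)
          MvPowerSeries.le_order_mul

variable [CompleteSpace K]

/-- A family on pairs which vanishes below the diagonal and decays with the second degree. -/
lemma summable_pairs [Finite σ] [Finite τ] {G : (σ →₀ ℕ) × (τ →₀ ℕ) → K} {C M : ℝ} (hM0 : 0 ≤ M)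
    (hsmall : M < 1) (hG0 : ∀ x : (σ →₀ ℕ) × (τ →₀ ℕ), x.2.degree < x.1.degree → G x = 0)
    (hGb : ∀ x : (σ →₀ ℕ) × (τ →₀ ℕ), ‖G x‖ ≤ C * M ^ x.2.degree) : Summable G := by
    refine summable_of_tendsto_zero (Metric.tendsto_nhds.2 fun ε hε => ?_)
    obtain ⟨N, hN⟩ := eventually_atTop.1 ((tendsto_order.1 (show
      Tendsto (fun N : ℕ => C * M ^ N) atTop (𝓝 0) by
        simpa using (tendsto_pow_atTop_nhds_zero_of_lt_one hM0 hsmall).const_mul C)).2 ε hε)
    rw [eventually_cofinite]
    refine (finite_degree_pair N).subset fun x hx => ?_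
    by_contra hc
    apply hx
    rw [dist_zero_right]
    simp only [Set.mem_ofPred_eq, not_and_or, not_lt] at hc
    rcases lt_or_ge x.2.degree N with h2 | h2
    · rcases hc with h | h
      · rw [hG0 x (by omega), norm_zero]; exact hε
      · omega
    · exact lt_of_le_of_lt (hGb x) (hN _ h2)

/-- Evaluation commutes with substitution, for geometrically bounded series. -/
lemma ev_subst_of_bound [Finite σ] [Finite τ] {f : MvPowerSeries σ K}
    {b : σ → MvPowerSeries τ K} {a : τ → K} {C R B S ρ : ℝ} (hR : 0 ≤ R) (hB : 0 ≤ B)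
    (hS : 0 ≤ S) (hρ0 : 0 ≤ ρ) (hsmall : max 1 (R * B) * (S * ρ) < 1)
    (hf : ∀ d, ‖MvPowerSeries.coeff d f‖ ≤ C * R ^ d.degree)
    (hb : ∀ i e, ‖MvPowerSeries.coeff e (b i)‖ ≤ B * S ^ e.degree)
    (hb0 : ∀ i, MvPowerSeries.constantCoeff (b i) = 0) (ha : ∀ j, ‖a j‖ ≤ ρ) :
    Conv (MvPowerSeries.subst b f) a ∧
      ev (MvPowerSeries.subst b f) a = ev f fun i => ev (b i) a := by
  classical
  have := Fintype.ofFinite σ
  set G : (σ →₀ ℕ) × (τ →₀ ℕ) → K := fun x =>
    MvPowerSeries.coeff x.1 f * evTerm (∏ i, b i ^ x.1 i) a x.2 with hG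
  set M := max 1 (R * B) * (S * ρ) with hM
  have hM0 : 0 ≤ M := mul_nonneg (le_max_of_le_left zero_le_one) (mul_nonneg hS hρ0)
  have hC : 0 ≤ C := by simpa using (norm_nonneg _).trans (hf 0)
  have hG0 : ∀ x : (σ →₀ ℕ) × (τ →₀ ℕ), x.2.degree < x.1.degree → G x = 0 := by
    intro x hx
    have : MvPowerSeries.coeff x.2 (∏ i, b i ^ x.1 i) = 0 :=
      coeff_prod_eq_zero hb0 Finset.univ (fun i => x.1 i) (by rwa [← Finsupp.degree_eq_sum])
    simp [hG, evTerm, this]
  have hGb : ∀ x : (σ →₀ ℕ) × (τ →₀ ℕ), ‖G x‖ ≤ C * M ^ x.2.degree := by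
    intro x
    rcases lt_or_ge x.2.degree x.1.degree with h | h
    · rw [hG0 x h, norm_zero]; positivity
    have h1 := coeff_prod_bound hB hS hb Finset.univ (fun i => x.1 i) x.2
    rw [← Finsupp.degree_eq_sum] at h1
    simp only [hG, evTerm, norm_mul]
    calc ‖MvPowerSeries.coeff x.1 f‖ * (‖MvPowerSeries.coeff x.2 (∏ i, b i ^ x.1 i)‖ *
          ‖x.2.prod fun i e => a i ^ e‖)
        ≤ (C * R ^ x.1.degree) * ((B ^ x.1.degree * S ^ x.2.degree) * ρ ^ x.2.degree) :=
          mul_le_mul (hf _) (mul_le_mul h1 (norm_monomial_le ha _) (norm_nonneg _) (by positivity))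
            (by positivity) (by positivity)
      _ = C * (R * B) ^ x.1.degree * (S * ρ) ^ x.2.degree := by ring
      _ ≤ C * max 1 (R * B) ^ x.2.degree * (S * ρ) ^ x.2.degree := by
          refine mul_le_mul_of_nonneg_right (mul_le_mul_of_nonneg_left ?_ hC) (by positivity)
          exact (pow_le_pow_left₀ (mul_nonneg hR hB) (le_max_right _ _) _).trans
            (pow_le_pow_right₀ (le_max_left _ _) h)
      _ = _ := by rw [hM, mul_pow (max 1 (R * B)) (S * ρ), mul_assoc]
  have hGs : Summable G := summable_pairs hM0 hsmall hG0 hGb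
  have hsub : MvPowerSeries.HasSubst b := MvPowerSeries.hasSubst_of_constantCoeff_zero hb0
  have hcol : ∀ e, ∑' d, G (d, e) = evTerm (MvPowerSeries.subst b f) a e := by
    intro e
    have hfin : ∀ d ∉ (finite_degree_lt (σ := σ) (e.degree + 1)).toFinset, G (d, e) = 0 :=
      fun d hd => hG0 (d, e) (by simp at hd; omega)
    rw [tsum_eq_sum hfin, evTerm, MvPowerSeries.coeff_subst hsub,
      finsum_eq_sum_of_support_subset (s := (finite_degree_lt (σ := σ) (e.degree + 1)).toFinset),
      Finset.sum_mul]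
    · refine Finset.sum_congr rfl fun d _ => ?_
      simp only [hG, evTerm, smul_eq_mul, Finsupp.prod_fintype _ _ (fun i => pow_zero _)]
      ring
    · intro d hd
      by_contra hc
      refine hd ?_
      simp only [Set.Finite.coe_toFinset, Set.mem_ofPred_eq, not_lt] at hc
      change _ • _ = (0 : K)
      rw [smul_eq_mul, Finsupp.prod_fintype _ _ (fun i => pow_zero _),
        coeff_prod_eq_zero hb0 Finset.univ (fun i => d i)
          (by rw [← Finsupp.degree_eq_sum]; omega), mul_zero]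
  have hSρ : S * ρ < 1 :=
    lt_of_le_of_lt (le_mul_of_one_le_left (mul_nonneg hS hρ0) (le_max_left _ _)) hsmall
  have hbconv : ∀ i, Conv (b i) a := fun i => conv_of_bound hS hρ0 hSρ (hb i) ha
  have hrow : ∀ d, ∑' e, G (d, e) = evTerm f (fun i => ev (b i) a) d := by
    intro d
    have h := conv_prod_and_ev_prod Finset.univ (f := fun i => b i ^ d i)
      fun i _ => (hbconv i).pow (d i)
    simp only [hG]
    rw [tsum_mul_left, ← ev_eq_tsum, h.2, evTerm, Finsupp.prod_fintype _ _ (fun i => pow_zero _)]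
    exact congrArg _ (Finset.prod_congr rfl fun i _ => ev_pow (hbconv i) _)
  constructor
  · exact (hGs.prod_symm.prod).congr hcol
  · rw [ev_eq_tsum, ev_eq_tsum, ← tsum_congr hcol, ← tsum_congr hrow]
    exact Summable.tsum_comm (f := fun d e => G (d, e)) hGs

/-- Evaluation commutes with substitution, for integral series. -/
lemma ev_subst [Finite σ] [Finite τ] {f : MvPowerSeries σ K} {b : σ → MvPowerSeries τ K}
    {a : τ → K} (hf : IntegralSeries f) (hb : ∀ i, IntegralSeries (b i))
    (hb0 : ∀ i, MvPowerSeries.constantCoeff (b i) = 0) (ha : ∀ j, ‖a j‖ < 1) :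
    ev (MvPowerSeries.subst b f) a = ev f fun i => ev (b i) a := by
  obtain ⟨ρ, h0, h1, h2⟩ := exists_radius ha
  exact (ev_subst_of_bound (C := 1) (R := 1) (B := 1) (S := 1) (ρ := ρ) zero_le_one zero_le_one
    zero_le_one h0.le (by simpa using h1) (fun d => by simpa using hf d)
    (fun i e => by simpa using hb i e) hb0 h2).2

/-- Substitution of a one-variable series, evaluated. -/
lemma ev_psubst [Finite τ] {f : PowerSeries K} {b : MvPowerSeries τ K} {a : τ → K}
    (hf : IntegralSeries f) (hb : IntegralSeries b) (hb0 : MvPowerSeries.constantCoeff b = 0)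
    (ha : ∀ j, ‖a j‖ < 1) : ev (PowerSeries.subst b f) a = ev₁ f (ev b a) := by
  rw [PowerSeries.subst_def, ev_subst hf (fun _ => hb) (fun _ => hb0) ha]
  rfl

/-- Composition of one-variable series, evaluated. -/
lemma ev₁_subst {f g : PowerSeries K} {z : K} (hf : IntegralSeries f) (hg : IntegralSeries g)
    (hg0 : PowerSeries.constantCoeff g = 0) (hz : ‖z‖ < 1) :
    ev₁ (PowerSeries.subst g f) z = ev₁ f (ev₁ g z) :=
  ev_psubst hf hg hg0 fun _ => hz

/-- A pair of small points substituted in a two-variable series. -/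
lemma ev_subst_pair [Finite τ] {f : MvPowerSeries (Fin 2) K} {b c : MvPowerSeries τ K} {a : τ → K}
    (hf : IntegralSeries f) (hb : IntegralSeries b) (hc : IntegralSeries c)
    (hb0 : MvPowerSeries.constantCoeff b = 0) (hc0 : MvPowerSeries.constantCoeff c = 0)
    (ha : ∀ j, ‖a j‖ < 1) :
    ev (MvPowerSeries.subst ![b, c] f) a = ev f ![ev b a, ev c a] := by
  rw [ev_subst hf (b := ![b, c]) (Fin.forall_fin_two.2 ⟨hb, hc⟩) (Fin.forall_fin_two.2 ⟨hb0, hc0⟩) ha]
  congr 1
  funext i
  fin_cases i <;> rfl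

end Vale.Agent.P217
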