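/-
P217, EVAL: series in two blocks of variables, evaluated one block at a time.
-/
import Vale.Agent.P217.EvalLemmasSubst

namespace Vale.Agent.P217

open Filter Topology

variable {K : Type*} [NormedField K] {σ τ : Type*}

/-- The coefficient of `y^d` of a series in `(x, y)`, a series in `x`. -/
noncomputable def slice (F : MvPowerSeries (σ ⊕ τ) K) (d : τ →₀ ℕ) : MvPowerSeries σ K :=
  fun c => MvPowerSeries.coeff (Finsupp.sumFinsuppEquivProdFinsupp.symm (c, d)) F

/-- A series in `(x, y)` with `x` evaluated, a series in `y`. -/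
noncomputable def evLeft (F : MvPowerSeries (σ ⊕ τ) K) (x : σ → K) : MvPowerSeries τ K :=
  fun d => ev (slice F d) x

lemma coeff_slice (F : MvPowerSeries (σ ⊕ τ) K) (d : τ →₀ ℕ) (c : σ →₀ ℕ) :
    MvPowerSeries.coeff c (slice F d) =
      MvPowerSeries.coeff (Finsupp.sumFinsuppEquivProdFinsupp.symm (c, d)) F := rfl

lemma coeff_evLeft (F : MvPowerSeries (σ ⊕ τ) K) (x : σ → K) (d : τ →₀ ℕ) :
    MvPowerSeries.coeff d (evLeft F x) = ev (slice F d) x := rfl

lemma integral_slice {F : MvPowerSeries (σ ⊕ τ) K} (hF : IntegralSeries F) (d : τ →₀ ℕ) :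
    IntegralSeries (slice F d) := fun c => by rw [coeff_slice]; exact hF _

variable [IsUltrametricDist K]

lemma integral_evLeft {F : MvPowerSeries (σ ⊕ τ) K} (hF : IntegralSeries F) {x : σ → K}
    (hx : ∀ i, ‖x i‖ ≤ 1) : IntegralSeries (evLeft F x) := fun d => by
  rw [coeff_evLeft]; exact norm_ev_le_one (integral_slice hF d) hx

omit [IsUltrametricDist K] in
lemma evTerm_split [Finite σ] [Finite τ] (F : MvPowerSeries (σ ⊕ τ) K) (x : σ → K) (y : τ → K)
    (c : σ →₀ ℕ) (d : τ →₀ ℕ) :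
    evTerm F (Sum.elim x y) (Finsupp.sumFinsuppEquivProdFinsupp.symm (c, d)) =
      evTerm (slice F d) x c * d.prod fun j k => y j ^ k := by
  have := Fintype.ofFinite σ
  have := Fintype.ofFinite τ
  rw [evTerm, evTerm, coeff_slice, mul_assoc]
  congr 1
  rw [Finsupp.prod_fintype _ _ (fun i => pow_zero _), Finsupp.prod_fintype _ _ (fun i => pow_zero _),
    Finsupp.prod_fintype _ _ (fun i => pow_zero _), Fintype.prod_sum_type]
  exact congrArg₂ (· * ·)
    (Finset.prod_congr rfl fun i _ => by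
      rw [Sum.elim_inl, Finsupp.sumFinsuppEquivProdFinsupp_symm_inl])
    (Finset.prod_congr rfl fun i _ => by
      rw [Sum.elim_inr, Finsupp.sumFinsuppEquivProdFinsupp_symm_inr])

variable [CompleteSpace K]

lemma ev_evLeft [Finite σ] [Finite τ] {F : MvPowerSeries (σ ⊕ τ) K} (hF : IntegralSeries F)
    {x : σ → K} {y : τ → K} (hx : ∀ i, ‖x i‖ < 1) (hy : ∀ j, ‖y j‖ < 1) :
    ev (evLeft F x) y = ev F (Sum.elim x y) := by
  have hs : Summable (evTerm F (Sum.elim x y)) :=
    conv_of_integral hF fun i => by rcases i with i | j <;> simp [hx, hy]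
  let e : (σ →₀ ℕ) × (τ →₀ ℕ) ≃ (σ ⊕ τ →₀ ℕ) :=
    Finsupp.sumFinsuppEquivProdFinsupp.symm
  have hG : Summable fun z => evTerm F (Sum.elim x y) (e z) :=
    hs.comp_injective e.injective
  calc ev (evLeft F x) y = ∑' d, ∑' c, evTerm F (Sum.elim x y) (e (c, d)) := by
        rw [ev_eq_tsum]
        refine tsum_congr fun d => ?_
        rw [evTerm, coeff_evLeft, ev_eq_tsum, ← tsum_mul_right]
        exact tsum_congr fun c => (evTerm_split F x y c d).symm
    _ = ∑' c, ∑' d, evTerm F (Sum.elim x y) (e (c, d)) :=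
        Summable.tsum_comm (f := fun c d => evTerm F (Sum.elim x y) (e (c, d))) hG
    _ = ∑' z, evTerm F (Sum.elim x y) (e z) := (hG.tsum_prod).symm
    _ = ev F (Sum.elim x y) := e.tsum_eq (evTerm F (Sum.elim x y))

/-- The series with coefficient `coeff c (A b)` at `(c, b)`. -/
noncomputable def uncurrySeries (A : ℕ → MvPowerSeries σ K) : MvPowerSeries (σ ⊕ Unit) K :=
  fun d => MvPowerSeries.coeff (Finsupp.sumFinsuppEquivProdFinsupp d).1
    (A ((Finsupp.sumFinsuppEquivProdFinsupp d).2 ()))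

omit [IsUltrametricDist K] [CompleteSpace K] in
lemma integral_uncurry {A : ℕ → MvPowerSeries σ K} (hA : ∀ b, IntegralSeries (A b)) :
    IntegralSeries (uncurrySeries A) := fun _ => hA _ _

omit [IsUltrametricDist K] [CompleteSpace K] in
lemma slice_uncurry (A : ℕ → MvPowerSeries σ K) (d : Unit →₀ ℕ) :
    slice (uncurrySeries A) d = A (d ()) := by
  ext c
  rw [coeff_slice, MvPowerSeries.coeff_apply, uncurrySeries, Equiv.apply_symm_apply]

lemma ev_uncurry [Finite σ] {A : ℕ → MvPowerSeries σ K} (hA : ∀ b, IntegralSeries (A b))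
    {a : σ → K} {z : K} (ha : ∀ i, ‖a i‖ < 1) (hz : ‖z‖ < 1) :
    ev (uncurrySeries A) (Sum.elim a fun _ => z) = ∑' b, ev (A b) a * z ^ b := by
  rw [← ev_evLeft (integral_uncurry hA) ha (fun _ => hz), ev_eq_tsum,
    ← (Finsupp.uniqueEquiv (α := Unit) (M := ℕ) default).symm.tsum_eq]
  refine tsum_congr fun b => ?_
  rw [evTerm, coeff_evLeft, slice_uncurry]
  simp

end Vale.Agent.P217
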