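/-
P217, EVAL: translation of a series to a point of the open polydisc.
-/
import Vale.Agent.P217.EvalLemmasSplit

namespace Vale.Agent.P217

variable {K : Type*} [NormedField K] {σ : Type*}

/-- `f (x + y)` as a series in the two blocks of variables. -/
noncomputable def addSeries (f : MvPowerSeries σ K) : MvPowerSeries (σ ⊕ σ) K :=
  MvPowerSeries.subst (fun i => MvPowerSeries.X (Sum.inl i) + MvPowerSeries.X (Sum.inr i)) f

/-- The expansion of `f` around the point `x`. -/
noncomputable def translate (f : MvPowerSeries σ K) (x : σ → K) : MvPowerSeries σ K :=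
  evLeft (addSeries f) x

variable [Finite σ]

lemma hasSubst_add : MvPowerSeries.HasSubst
    (fun i => MvPowerSeries.X (Sum.inl i) + MvPowerSeries.X (Sum.inr i) :
      σ → MvPowerSeries (σ ⊕ σ) K) :=
  MvPowerSeries.hasSubst_of_constantCoeff_zero fun i => by simp

variable [IsUltrametricDist K]

lemma integral_addSeries {f : MvPowerSeries σ K} (hf : IntegralSeries f) :
    IntegralSeries (addSeries f) :=
  hf.subst (fun _ => (IntegralSeries.X _).add (IntegralSeries.X _)) hasSubst_add

lemma translate_integral {f : MvPowerSeries σ K} (hf : IntegralSeries f) {x : σ → K}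
    (hx : ∀ i, ‖x i‖ ≤ 1) : IntegralSeries (translate f x) :=
  integral_evLeft (integral_addSeries hf) hx

omit [Finite σ] in
lemma norm_add_lt_one {a b : K} (ha : ‖a‖ < 1) (hb : ‖b‖ < 1) : ‖a + b‖ < 1 :=
  lt_of_le_of_lt (IsUltrametricDist.norm_add_le_max a b) (max_lt ha hb)

variable [CompleteSpace K]

/-- The expansion around `x` evaluates to the value at the translated point. -/
lemma ev_translate {f : MvPowerSeries σ K} (hf : IntegralSeries f) {x d : σ → K}
    (hx : ∀ i, ‖x i‖ < 1) (hd : ∀ i, ‖d i‖ < 1) : ev (translate f x) d = ev f (x + d) := by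
  have hsmall : ∀ j : σ ⊕ σ, ‖Sum.elim x d j‖ < 1 := fun j => by
    rcases j with i | i <;> simp [hx, hd]
  rw [translate, ev_evLeft (integral_addSeries hf) hx hd, addSeries,
    ev_subst hf (fun _ => (IntegralSeries.X _).add (IntegralSeries.X _)) (fun i => by simp) hsmall]
  congr 1
  funext i
  rw [ev_add (conv_X _ _) (conv_X _ _), ev_X, ev_X]
  rfl

lemma constantCoeff_translate {f : MvPowerSeries σ K} (hf : IntegralSeries f) {x : σ → K}
    (hx : ∀ i, ‖x i‖ < 1) : MvPowerSeries.constantCoeff (translate f x) = ev f x := by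
  rw [← ev_apply_zero, ev_translate hf hx fun _ => by simp]
  congr 1
  funext i
  simp

/-- A vanishing expansion means vanishing on the whole open polydisc. -/
lemma ev_eq_zero_of_translate {f : MvPowerSeries σ K} (hf : IntegralSeries f) {x : σ → K}
    (hx : ∀ i, ‖x i‖ < 1) (h0 : translate f x = 0) {y : σ → K} (hy : ∀ i, ‖y i‖ < 1) :
    ev f y = 0 := by
  have h := ev_translate hf (d := y - x) hx fun i => by
    rw [Pi.sub_apply, sub_eq_add_neg]
    exact norm_add_lt_one (hy i) (by rw [norm_neg]; exact hx i)
  rw [h0, ev_zero, add_sub_cancel] at h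
  exact h.symm

end Vale.Agent.P217
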