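/-
P217, EVAL: the linear part of an expansion is given by the partial derivatives.
-/
import Vale.Agent.P217.EvalLemmasTranslate

namespace Vale.Agent.P217

open MvPowerSeries

variable {K : Type*} [NormedField K] {σ : Type*} [Finite σ]

lemma pderiv_addSeries_coe (j : σ) (q : MvPolynomial σ K) :
    pderiv K (Sum.inr j) (addSeries (q : MvPowerSeries σ K)) =
      addSeries (pderiv K j (q : MvPowerSeries σ K)) := by
  classical
  have hs := hasSubst_add (K := K) (σ := σ)
  simp only [addSeries, ← coe_substAlgHom hs]
  induction q using MvPolynomial.induction_on with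
  | C c =>
    rw [MvPolynomial.coe_C, pderiv_C, map_zero, c_eq_algebraMap, AlgHom.commutes,
      ← c_eq_algebraMap, pderiv_C]
  | add q r hq hr => rw [MvPolynomial.coe_add, map_add, map_add, hq, hr, map_add, map_add]
  | mul_X q i hq =>
    have hX : pderiv K (Sum.inr j) (substAlgHom hs (X i : MvPowerSeries σ K)) =
        substAlgHom hs (pderiv K j (X i : MvPowerSeries σ K)) := by
      rw [coe_substAlgHom, subst_X hs, map_add, pderiv_X_of_ne (by simp), zero_add]
      rcases eq_or_ne i j with rfl | h
      · rw [pderiv_X_self, pderiv_X_self, ← coe_substAlgHom hs, map_one]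
      · rw [pderiv_X_of_ne (by simpa using h), pderiv_X_of_ne h, ← coe_substAlgHom hs, map_zero]
    rw [MvPolynomial.coe_mul, MvPolynomial.coe_X, map_mul, Derivation.leibniz, hq, hX,
      Derivation.leibniz]
    simp only [smul_eq_mul, map_add, map_mul]

variable [IsUltrametricDist K]

omit [IsUltrametricDist K] in
lemma coeff_addSeries_eq_zero {f : MvPowerSeries σ K} {N : ℕ}
    (hf : ∀ d, d.degree < N → coeff d f = 0) {e : σ ⊕ σ →₀ ℕ} (he : e.degree < N) :
    coeff e (addSeries f) = 0 := by
  classical
  have := Fintype.ofFinite σ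
  rw [addSeries, coeff_subst hasSubst_add]
  refine finsum_eq_zero_of_forall_eq_zero fun d => ?_
  rcases lt_or_ge d.degree N with h | h
  · rw [hf d h, zero_smul]
  · rw [Finsupp.prod_fintype _ _ (fun i => pow_zero _),
      coeff_prod_eq_zero (b := fun i => (X (Sum.inl i) + X (Sum.inr i) : MvPowerSeries (σ ⊕ σ) K))
        (fun i => by simp) Finset.univ (fun i => d i)
        (by rw [← Finsupp.degree_eq_sum]; omega), smul_zero]

omit [IsUltrametricDist K] in
/-- The chain rule for `f (x + y)`. -/
lemma pderiv_addSeries (j : σ) (f : MvPowerSeries σ K) :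
    pderiv K (Sum.inr j) (addSeries f) = addSeries (pderiv K j f) := by
  classical
  ext e
  set q : MvPolynomial σ K := truncTotal (e.degree + 2) f
  have hq : ∀ d, d.degree < e.degree + 2 → coeff d (f - (q : MvPowerSeries σ K)) = 0 := by
    intro d hd
    rw [map_sub, MvPolynomial.coeff_coe]
    exact sub_eq_zero.2 (coeff_truncTotal _ hd).symm
  have hadd : ∀ u v : MvPowerSeries σ K, addSeries (u - v) = addSeries u - addSeries v := fun u v => by
    simp only [addSeries, ← coe_substAlgHom (hasSubst_add (K := K) (σ := σ)), map_sub]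
  have h1 : coeff e (pderiv K (Sum.inr j) (addSeries (f - (q : MvPowerSeries σ K)))) = 0 := by
    rw [coeff_pderiv, coeff_addSeries_eq_zero hq (by simp), zero_mul]
  have h2 : coeff e (addSeries (pderiv K j (f - (q : MvPowerSeries σ K)))) = 0 := by
    refine coeff_addSeries_eq_zero (N := e.degree + 1) (fun d hd => ?_) (by omega)
    rw [coeff_pderiv, hq _ (by simp; omega), zero_mul]
  rw [hadd, map_sub, map_sub, sub_eq_zero] at h1
  rw [map_sub, hadd, map_sub, sub_eq_zero] at h2
  rw [h1, h2, pderiv_addSeries_coe]

omit [IsUltrametricDist K] in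
lemma slice_single (F : MvPowerSeries (σ ⊕ σ) K) (j : σ) :
    slice F (Finsupp.single j 1) = slice (pderiv K (Sum.inr j) F) 0 := by
  classical
  ext c
  rw [coeff_slice, coeff_slice, coeff_pderiv, Finsupp.sumFinsuppEquivProdFinsupp_symm_inr]
  rw [Finsupp.coe_zero, Pi.zero_apply, Nat.cast_zero, zero_add, mul_one]
  congr 2
  ext (i | i)
  · simp [Finsupp.sumFinsuppEquivProdFinsupp_symm_inl]
  · by_cases h : j = i <;> simp [Finsupp.sumFinsuppEquivProdFinsupp_symm_inr, h]

variable [CompleteSpace K]

/-- The linear coefficients of the expansion at `x` are the partial derivatives at `x`. -/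
lemma coeff_single_translate {f : MvPowerSeries σ K} (hf : IntegralSeries f) {x : σ → K}
    (hx : ∀ i, ‖x i‖ < 1) (j : σ) :
    coeff (Finsupp.single j 1) (translate f x) = ev (pderiv K j f) x := by
  have hd : IntegralSeries (pderiv K j f) := fun d => by
    rw [coeff_pderiv, norm_mul]
    refine mul_le_one₀ (hf _) (norm_nonneg _) ?_
    rw [← Nat.cast_add_one]
    exact IsUltrametricDist.norm_natCast_le_one K _
  rw [← constantCoeff_translate hd hx, ← coeff_zero_eq_constantCoeff_apply]
  simp only [translate, coeff_evLeft, slice_single, pderiv_addSeries]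

end Vale.Agent.P217
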