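/-
P217, EVAL: evaluation and the Frobenius in characteristic `p`.
-/
import Vale.Agent.P217.EvalLemmas

namespace Vale.Agent.P217

variable {K : Type*} [NormedField K] {σ : Type*}

lemma continuous_iterateFrobenius (p : ℕ) [ExpChar K p] (k : ℕ) :
    Continuous (iterateFrobenius K p k) := by
  rw [show ⇑(iterateFrobenius K p k) = fun z => z ^ p ^ k from funext fun z => iterateFrobenius_def p k z]
  fun_prop

lemma evTerm_map_frobenius (p : ℕ) [ExpChar K p] (f : MvPowerSeries σ K) (a : σ → K) (k : ℕ)
    (d : σ →₀ ℕ) :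
    evTerm (MvPowerSeries.map (iterateFrobenius K p k) f) (fun i => a i ^ p ^ k) d =
      iterateFrobenius K p k (evTerm f a d) := by
  simp only [evTerm, MvPowerSeries.coeff_map, map_mul, map_finsuppProd, iterateFrobenius_def]
  congr 1
  refine Finsupp.prod_congr fun i _ => ?_
  rw [← pow_mul, ← pow_mul, mul_comm]

lemma conv_map_frobenius (p : ℕ) [ExpChar K p] {f : MvPowerSeries σ K} {a : σ → K} (k : ℕ)
    (hf : Conv f a) :
    Conv (MvPowerSeries.map (iterateFrobenius K p k) f) (fun i => a i ^ p ^ k) :=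
  (Summable.map hf (iterateFrobenius K p k) (continuous_iterateFrobenius p k)).congr fun d =>
    (evTerm_map_frobenius p f a k d).symm

lemma ev_map_frobenius (p : ℕ) [ExpChar K p] {f : MvPowerSeries σ K} {a : σ → K} (k : ℕ)
    (hf : Conv f a) :
    ev (MvPowerSeries.map (iterateFrobenius K p k) f) (fun i => a i ^ p ^ k) = ev f a ^ p ^ k := by
  rw [ev_eq_tsum, tsum_congr (evTerm_map_frobenius p f a k),
    ← Summable.map_tsum hf _ (continuous_iterateFrobenius p k), ← ev_eq_tsum, iterateFrobenius_def]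

lemma ev₁_map_frobenius (p : ℕ) [ExpChar K p] {f : PowerSeries K} {z : K} (k : ℕ)
    (hf : Conv f fun _ : Unit => z) :
    ev₁ (PowerSeries.map (iterateFrobenius K p k) f) (z ^ p ^ k) = ev₁ f z ^ p ^ k :=
  ev_map_frobenius p k hf

end Vale.Agent.P217
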