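/-
P217, EVAL: a bounded ring homomorphism out of a power series ring is an evaluation.
-/
import Vale.Agent.P217.EvalLemmasBounds
import Vale.Agent.P202.RingSide.Complete

namespace Vale.Agent.P217

open Filter Topology

variable {K : Type*} [NormedField K] [IsUltrametricDist K] {R : Type*} [CommRing R] {σ : Type*}
  [Finite σ]

omit [Finite σ] in
lemma norm_le_of_mem_pow {x : MvPowerSeries σ R →+* K} (hx : ∀ a, ‖x a‖ ≤ 1) {ρ : ℝ} (hρ : 0 ≤ ρ)
    (hX : ∀ i, ‖x (MvPowerSeries.X i)‖ ≤ ρ) :
    ∀ (N : ℕ) (a : MvPowerSeries σ R),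
      a ∈ Ideal.span (Set.range (MvPowerSeries.X : σ → MvPowerSeries σ R)) ^ N →
        ‖x a‖ ≤ ρ ^ N := by
  intro N
  induction N with
  | zero => intro a _; simpa using hx a
  | succ N ih =>
    intro a ha
    rw [pow_succ] at ha
    induction ha using Submodule.mul_induction_on' with
    | mem_mul_mem b hb c hc =>
      rw [map_mul, norm_mul, pow_succ]
      refine mul_le_mul (ih b hb) ?_ (norm_nonneg _) (by positivity)
      induction hc using Submodule.span_induction with
      | mem u hu => obtain ⟨i, rfl⟩ := hu; exact hX i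
      | zero => simpa using hρ
      | add u v _ _ hu hv =>
        rw [map_add]; exact (IsUltrametricDist.norm_add_le_max _ _).trans (max_le hu hv)
      | smul u v _ hv =>
        rw [smul_eq_mul, map_mul, norm_mul]
        exact le_trans (mul_le_of_le_one_left (norm_nonneg _) (hx u)) hv
    | add u _ v _ hu hv =>
      rw [map_add]; exact (IsUltrametricDist.norm_add_le_max _ _).trans (max_le hu hv)

variable [CompleteSpace K]

/-- `x a = ev (a with coefficients pushed by x) (x u)`. -/
theorem ringHom_eq_ev (x : MvPowerSeries σ R →+* K) (hx : ∀ a, ‖x a‖ ≤ 1)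
    (hX : ∀ i, ‖x (MvPowerSeries.X i)‖ < 1) (a : MvPowerSeries σ R) :
    x a = ev (MvPowerSeries.map (x.comp MvPowerSeries.C) a) (fun i => x (MvPowerSeries.X i)) := by
  obtain ⟨ρ, hρ0, hρ1, hρ⟩ := exists_radius hX
  have hint : ∀ b : MvPowerSeries σ R, IntegralSeries (MvPowerSeries.map (x.comp MvPowerSeries.C) b) :=
    fun b => IntegralSeries.map (x.comp MvPowerSeries.C) (fun c => hx (MvPowerSeries.C c)) b
  rw [← sub_eq_zero, ← norm_le_zero_iff]
  refine ge_of_tendsto (tendsto_pow_atTop_nhds_zero_of_lt_one hρ0.le hρ1)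
    (Eventually.of_forall fun N => ?_)
  set q : MvPolynomial σ R := MvPowerSeries.truncTotal N a
  have hq : ∀ d, d.degree < N → MvPowerSeries.coeff d (a - (q : MvPowerSeries σ R)) = 0 := fun d hd => by
    rw [map_sub, MvPolynomial.coeff_coe]
    exact sub_eq_zero.2 (MvPowerSeries.coeff_truncTotal _ hd).symm
  have h1 := norm_le_of_mem_pow hx hρ0.le hρ N _ (Vale.Agent.P202.mem_span_X_pow hq)
  have h2 : ‖ev (MvPowerSeries.map (x.comp MvPowerSeries.C) (a - (q : MvPowerSeries σ R)))
      (fun i => x (MvPowerSeries.X i))‖ ≤ ρ ^ N :=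
    norm_ev_le_pow (hint _) (fun d hd => by rw [MvPowerSeries.coeff_map, hq d hd, map_zero])
      hρ0.le hρ1.le hρ
  have h3 : x (q : MvPowerSeries σ R) =
      ev (MvPowerSeries.map (x.comp MvPowerSeries.C) (q : MvPowerSeries σ R))
        (fun i => x (MvPowerSeries.X i)) := by
    have e : MvPowerSeries.map (x.comp MvPowerSeries.C) (q : MvPowerSeries σ R) =
        (MvPolynomial.map (x.comp MvPowerSeries.C) q : MvPolynomial σ K) := by
      ext d; simp [MvPolynomial.coeff_map]
    rw [e, ev_coe, MvPolynomial.eval_map, ← MvPolynomial.coe_eval₂Hom]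
    have e2 : x.comp MvPolynomial.coeToMvPowerSeries.ringHom =
        MvPolynomial.eval₂Hom (x.comp MvPowerSeries.C) (fun i => x (MvPowerSeries.X i)) :=
      MvPolynomial.ringHom_ext (fun c => by simp) (fun i => by simp)
    simpa using RingHom.congr_fun e2 q
  rw [map_sub] at h1
  rw [map_sub, ev_sub (conv_of_integral (hint _) hX) (conv_of_integral (hint _) hX), ← h3] at h2
  rw [show x a - ev (MvPowerSeries.map (x.comp MvPowerSeries.C) a) (fun i => x (MvPowerSeries.X i)) =
    (x a - x (q : MvPowerSeries σ R)) + -(ev (MvPowerSeries.map (x.comp MvPowerSeries.C) a)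
      (fun i => x (MvPowerSeries.X i)) - x (q : MvPowerSeries σ R)) by ring]
  exact (IsUltrametricDist.norm_add_le_max _ _).trans (max_le h1 (by rw [norm_neg]; exact h2))

end Vale.Agent.P217
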