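/-
P217, EVAL: a series small near the origin has no low-degree part.
-/
import Vale.Agent.P217.EvalLemmasTranslate

namespace Vale.Agent.P217

open Filter Topology

variable {K : Type*} [NormedField K] [IsUltrametricDist K] [CompleteSpace K] {σ : Type*} [Finite σ]

omit [IsUltrametricDist K] [CompleteSpace K] in
lemma infinite_small {π : K} (hπ0 : π ≠ 0) (hπ1 : ‖π‖ < 1) :
    {z : K | ‖z‖ ≤ 1}.Infinite := by
  refine Set.infinite_of_injective_forall_mem (f := fun N : ℕ => π ^ N) ?_ fun N => by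
    simp only [Set.mem_ofPred_eq, norm_pow]
    exact pow_le_one₀ (norm_nonneg _) hπ1.le
  intro a b hab
  have := congrArg (‖·‖) hab
  simp only [norm_pow] at this
  exact pow_right_injective₀ (norm_pos_iff.2 hπ0) hπ1.ne this

/-- A series which is `O(ρ ^ D)` on the polydisc of radius `ρ` has no coefficient below `D`. -/
lemma coeff_eq_zero_of_norm_ev_le {f : MvPowerSeries σ K} {C R C' r₀ : ℝ} {D : ℕ} {π : K}
    (hπ0 : π ≠ 0) (hπ1 : ‖π‖ < 1) (hR : 0 ≤ R) (hr₀ : 0 < r₀)
    (hf : ∀ d, ‖MvPowerSeries.coeff d f‖ ≤ C * R ^ d.degree)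
    (hsmall : ∀ ρ, 0 < ρ → ρ ≤ r₀ → ∀ δ : σ → K, (∀ i, ‖δ i‖ ≤ ρ) → ‖ev f δ‖ ≤ C' * ρ ^ D) :
    ∀ d, d.degree < D → MvPowerSeries.coeff d f = 0 := by
  classical
  suffices h : ∀ k < D, ∀ d, d.degree = k → MvPowerSeries.coeff d f = 0 from
    fun d hd => h _ hd d rfl
  intro k
  induction k using Nat.strong_induction_on with
  | h k ih =>
  intro hk
  have hC : 0 ≤ C := by simpa using (norm_nonneg _).trans (hf 0)
  set P : MvPolynomial σ K := ∑ d ∈ (finite_degree_lt (σ := σ) (k + 1)).toFinset,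
    MvPolynomial.monomial d (MvPowerSeries.coeff d f) with hP
  have hPc : ∀ d, MvPolynomial.coeff d P =
      if d.degree < k + 1 then MvPowerSeries.coeff d f else 0 := by
    intro d
    rw [hP, MvPolynomial.coeff_sum]
    simp [MvPolynomial.coeff_monomial]
  have hhom : P.IsHomogeneous k := by
    intro d hd
    rw [hPc] at hd
    have hlt : d.degree < k + 1 := by
      by_contra hc
      rw [if_neg hc] at hd
      exact hd rfl
    have hge : k ≤ d.degree := by
      by_contra hc
      rw [if_pos hlt, ih d.degree (not_le.1 hc) (by omega) d rfl] at hd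
      exact hd rfl
    rw [show (1 : σ → ℕ) = fun _ => 1 from rfl, ← Finsupp.degree_eq_weight_one]
    omega
  obtain ⟨N₀, hN₀⟩ := eventually_atTop.1 ((tendsto_order.1 (show
    Tendsto (fun N : ℕ => ‖π‖ ^ N) atTop (𝓝 0) from
      tendsto_pow_atTop_nhds_zero_of_lt_one (norm_nonneg _) hπ1)).2 (min r₀ (1 / (R + 1)))
      (lt_min hr₀ (by positivity)))
  have hval : ∀ z : σ → K, (∀ i, ‖z i‖ ≤ 1) → MvPolynomial.eval z P = 0 := by
    intro z hz
    rw [← norm_le_zero_iff]
    refine ge_of_tendsto (x := atTop)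
      (f := fun N : ℕ => (max C' 0 + C * R ^ (k + 1)) * ‖π‖ ^ N) ?_ ?_
    · simpa using (tendsto_pow_atTop_nhds_zero_of_lt_one (norm_nonneg π) hπ1).const_mul
        (max C' 0 + C * R ^ (k + 1))
    refine eventually_atTop.2 ⟨N₀, fun N hN => ?_⟩
    set τ := ‖π‖ ^ N with hτ
    have hτpos : 0 < τ := pow_pos (norm_pos_iff.2 hπ0) N
    have hτ1 : τ ≤ 1 := pow_le_one₀ (norm_nonneg _) hπ1.le
    have hτr : τ ≤ r₀ := ((hN₀ N hN).trans_le (min_le_left _ _)).le
    have hτR : R * τ < 1 := by
      have h1 : τ < 1 / (R + 1) := (hN₀ N hN).trans_le (min_le_right _ _)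
      rw [lt_div_iff₀ (by linarith)] at h1
      nlinarith
    set δ : σ → K := fun i => π ^ N * z i
    have hδ : ∀ i, ‖δ i‖ ≤ τ := fun i => by
      simp only [δ, norm_mul, norm_pow]
      exact mul_le_of_le_one_right hτpos.le (hz i)
    have hfc : Conv f δ := conv_of_bound hR hτpos.le hτR hf hδ
    have hdiff : ‖ev (f - (P : MvPowerSeries σ K)) δ‖ ≤ C * R ^ (k + 1) * τ ^ (k + 1) := by
      refine norm_ev_le (by positivity) fun d => ?_
      rw [evTerm, map_sub, MvPolynomial.coeff_coe, hPc]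
      rcases lt_or_ge d.degree (k + 1) with h | h
      · rw [if_pos h, sub_self, zero_mul, norm_zero]; positivity
      · rw [if_neg (not_lt.2 h), sub_zero, norm_mul]
        calc _ ≤ (C * R ^ d.degree) * τ ^ d.degree :=
              mul_le_mul (hf d) (norm_monomial_le hδ d) (norm_nonneg _) (by positivity)
          _ = C * (R * τ) ^ d.degree := by ring
          _ ≤ C * (R * τ) ^ (k + 1) := mul_le_mul_of_nonneg_left
              (pow_le_pow_of_le_one (by positivity) hτR.le h) hC
          _ = _ := by ring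
    have hf' : ‖ev f δ‖ ≤ max C' 0 * τ ^ (k + 1) :=
      (hsmall τ hτpos hτr δ hδ).trans <| (mul_le_mul_of_nonneg_right (le_max_left C' 0)
        (by positivity)).trans (mul_le_mul_of_nonneg_left
          (pow_le_pow_of_le_one hτpos.le hτ1 hk) (le_max_right _ _))
    rw [ev_sub hfc (conv_coe P δ), ev_coe] at hdiff
    have hPd : ‖MvPolynomial.eval δ P‖ ≤ (max C' 0 + C * R ^ (k + 1)) * τ ^ (k + 1) := by
      rw [show MvPolynomial.eval δ P = ev f δ + -(ev f δ - MvPolynomial.eval δ P) by ring]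
      refine (IsUltrametricDist.norm_add_le_max _ _).trans (max_le ?_ ?_)
      · exact hf'.trans (mul_le_mul_of_nonneg_right
          (le_add_of_nonneg_right (by positivity)) (by positivity))
      · rw [norm_neg]
        exact hdiff.trans (mul_le_mul_of_nonneg_right
          (le_add_of_nonneg_left (le_max_right _ _)) (by positivity))
    have hscale : MvPolynomial.eval δ P = (π ^ N) ^ k * MvPolynomial.eval z P := by
      rw [MvPolynomial.eval_eq, MvPolynomial.eval_eq, Finset.mul_sum]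
      refine Finset.sum_congr rfl fun d hd => ?_
      have hdeg := hhom (MvPolynomial.mem_support_iff.1 hd)
      rw [show (1 : σ → ℕ) = fun _ => 1 from rfl, ← Finsupp.degree_eq_weight_one, Finsupp.degree_apply] at hdeg
      simp only [δ, mul_pow, Finset.prod_mul_distrib, Finset.prod_pow_eq_pow_sum, hdeg]
      ring
    rw [hscale, norm_mul, norm_pow, norm_pow, ← hτ, pow_succ] at hPd
    refine le_of_mul_le_mul_left (hPd.trans_eq ?_) (pow_pos hτpos k)
    ring
  have hzero : P = 0 := MvPolynomial.funext_set (fun _ : σ => {z : K | ‖z‖ ≤ 1})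
    (fun _ => infinite_small hπ0 hπ1) fun z hz => by
      rw [map_zero]; exact hval z fun i => hz i (Set.mem_univ i)
  intro d hd
  have := hPc d
  rw [hzero, if_pos (by omega)] at this
  simpa using this.symm

/-- A series vanishing near the origin is zero. -/
lemma eq_zero_of_ev_eq_zero {f : MvPowerSeries σ K} {C R r₀ : ℝ} {π : K} (hπ0 : π ≠ 0)
    (hπ1 : ‖π‖ < 1) (hR : 0 ≤ R) (hr₀ : 0 < r₀)
    (hf : ∀ d, ‖MvPowerSeries.coeff d f‖ ≤ C * R ^ d.degree)
    (h0 : ∀ δ : σ → K, (∀ i, ‖δ i‖ ≤ r₀) → ev f δ = 0) : f = 0 := by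
  ext d
  rw [map_zero]
  exact coeff_eq_zero_of_norm_ev_le (C' := 0) (D := d.degree + 1) hπ0 hπ1 hR hr₀ hf
    (fun ρ _ hρ δ hδ => by rw [h0 δ fun i => (hδ i).trans hρ]; simp) d (Nat.lt_succ_self _)

/-- A series with vanishing expansion at some point is zero. -/
lemma eq_zero_of_translate {f : MvPowerSeries σ K} {π : K} (hπ0 : π ≠ 0) (hπ1 : ‖π‖ < 1)
    (hf : IntegralSeries f) {x : σ → K} (hx : ∀ i, ‖x i‖ < 1) (h0 : translate f x = 0) : f = 0 :=
  eq_zero_of_ev_eq_zero (C := 1) (R := 1) (r₀ := 1 / 2) hπ0 hπ1 zero_le_one (by norm_num)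
    (fun d => by simpa using hf d)
    fun y hy => ev_eq_zero_of_translate hf hx h0 fun i => lt_of_le_of_lt (hy i) (by norm_num)

end Vale.Agent.P217
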