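/-
P217, EVAL: roots of power series in one variable over a complete algebraically closed
ultrametric field.
-/
import Vale.Agent.P217.EvalLemmasBounds

namespace Vale.Agent.P217

open Filter Topology

variable {K : Type*} [NormedField K]

/-- Integral coefficients, the first unit coefficient in degree `D`. -/
structure RootShape (f : PowerSeries K) (D : ℕ) : Prop where
  integral : IntegralSeries f
  low : ∀ b, b < D → ‖PowerSeries.coeff b f‖ < 1
  lead : ‖PowerSeries.coeff D f‖ = 1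

lemma integralSeries_powerSeries_iff {f : PowerSeries K} :
    IntegralSeries f ↔ ∀ b, ‖PowerSeries.coeff b f‖ ≤ 1 := by
  refine ⟨fun h b => h _, fun h d => ?_⟩
  rw [Finsupp.unique_single d]
  exact h _

lemma RootShape.coeff_le {f : PowerSeries K} {D : ℕ} (h : RootShape f D) (b : ℕ) :
    ‖PowerSeries.coeff b f‖ ≤ 1 := integralSeries_powerSeries_iff.1 h.integral b

lemma ev₁_eq_tsum (f : PowerSeries K) (a : K) :
    ev₁ f a = ∑' b, PowerSeries.coeff b f * a ^ b := by
  rw [ev₁, ev_eq_tsum]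
  refine (Equiv.tsum_eq (Finsupp.uniqueEquiv (M := ℕ) ()).symm _).symm.trans (tsum_congr fun b => ?_)
  simp [evTerm, PowerSeries.coeff]

lemma ev₁_coe (P : Polynomial K) (a : K) : ev₁ (P : PowerSeries K) a = P.eval a := by
  rw [ev₁_eq_tsum, tsum_eq_sum (s := P.support) fun b hb => by
    rw [Polynomial.coeff_coe, Polynomial.notMem_support_iff.1 hb, zero_mul]]
  simp [Polynomial.eval_eq_sum, Polynomial.sum, Polynomial.coeff_coe]

variable [IsUltrametricDist K]

/-! ### Polynomials -/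

lemma norm_sub_le_max_norm (x y : K) : ‖x - y‖ ≤ max ‖x‖ ‖y‖ := by
  simpa [sub_eq_add_neg] using IsUltrametricDist.norm_add_le_max x (-y)


lemma norm_eval_le_one {P : Polynomial K} (hP : ∀ b, ‖P.coeff b‖ ≤ 1) {a : K} (ha : ‖a‖ ≤ 1) :
    ‖P.eval a‖ ≤ 1 := by
  rw [Polynomial.eval_eq_sum_range]
  refine IsUltrametricDist.norm_sum_le_of_forall_le_of_nonneg zero_le_one fun i _ => ?_
  rw [norm_mul, norm_pow]
  exact mul_le_one₀ (hP i) (by positivity) (pow_le_one₀ (norm_nonneg a) ha)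

lemma norm_eval_sub_coeff_zero_le {P : Polynomial K} (hP : ∀ b, ‖P.coeff b‖ ≤ 1) {a : K}
    (ha : ‖a‖ ≤ 1) : ‖P.eval a - P.coeff 0‖ ≤ ‖a‖ := by
  conv_lhs => rw [← P.X_mul_divX_add]
  simp only [Polynomial.eval_add, Polynomial.eval_mul, Polynomial.eval_X, Polynomial.eval_C,
    Polynomial.coeff_add, Polynomial.coeff_C_zero, Polynomial.mul_coeff_zero, Polynomial.coeff_X_zero,
    zero_mul, zero_add, add_sub_cancel_right, norm_mul]
  exact mul_le_of_le_one_right (norm_nonneg a)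
    (norm_eval_le_one (fun b => by rw [Polynomial.coeff_divX]; exact hP _) ha)

lemma norm_coeff_taylor {P : Polynomial K} (hP : ∀ b, ‖P.coeff b‖ ≤ 1) {a : K} (ha : ‖a‖ ≤ 1)
    (k : ℕ) : ‖(P.taylor a).coeff k - P.coeff k‖ ≤ ‖a‖ := by
  have h : (Polynomial.hasseDeriv k P).coeff 0 = P.coeff k := by
    simp [Polynomial.hasseDeriv_coeff]
  rw [Polynomial.taylor_coeff, ← h]
  refine norm_eval_sub_coeff_zero_le (fun b => ?_) ha
  rw [Polynomial.hasseDeriv_coeff, norm_mul]
  exact mul_le_one₀ (IsUltrametricDist.norm_natCast_le_one K _) (norm_nonneg _) (hP _)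

lemma norm_coeff_prod_X_sub_C_le {t : ℝ} (ht0 : 0 ≤ t) (ht1 : t ≤ 1) :
    ∀ s : Multiset K, (∀ r ∈ s, t ≤ ‖r‖) → ∀ k,
      ‖((s.map fun r => Polynomial.X - Polynomial.C r).prod).coeff k‖ * t ^ k ≤
        (s.map fun r => ‖r‖).prod := by
  intro s
  induction s using Multiset.induction_on with
  | empty =>
    intro _ k
    rw [Multiset.map_zero, Multiset.prod_zero, Multiset.map_zero, Multiset.prod_zero,
      Polynomial.coeff_one]
    split_ifs with hk
    · simp [hk]
    · simp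
  | cons r s ih =>
    intro hs k
    rw [Multiset.map_cons, Multiset.prod_cons, Multiset.map_cons, Multiset.prod_cons]
    set P := (s.map fun r => Polynomial.X - Polynomial.C r).prod
    set B := (s.map fun r => ‖r‖).prod
    have ih' := ih fun x hx => hs x (Multiset.mem_cons_of_mem hx)
    have hr := hs r (Multiset.mem_cons_self r s)
    have hB : 0 ≤ B := Multiset.prod_nonneg fun x hx => by
      obtain ⟨y, -, rfl⟩ := Multiset.mem_map.1 hx
      exact norm_nonneg y
    rcases k with _ | k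
    · simp only [Polynomial.mul_coeff_zero, Polynomial.coeff_sub, Polynomial.coeff_X_zero,
        Polynomial.coeff_C_zero, zero_sub, pow_zero, mul_one, norm_mul, norm_neg]
      exact mul_le_mul_of_nonneg_left (by simpa using ih' 0) (norm_nonneg r)
    · rw [sub_mul, Polynomial.coeff_sub, Polynomial.coeff_X_mul, Polynomial.coeff_C_mul]
      refine (mul_le_mul_of_nonneg_right (norm_sub_le_max_norm _ _)
        (pow_nonneg ht0 _)).trans ?_
      rw [max_mul_of_nonneg _ _ (pow_nonneg ht0 _)]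
      refine max_le ?_ ?_
      · rw [pow_succ, ← mul_assoc]
        exact (mul_le_mul (ih' k) hr ht0 hB).trans_eq (mul_comm _ _)
      · rw [norm_mul, mul_assoc]
        exact mul_le_mul_of_nonneg_left (ih' (k + 1)) (norm_nonneg r)

lemma exists_root_norm_pow_le [IsAlgClosed K] {P : Polynomial K} {D : ℕ} (hD : D ≠ 0)
    (hlead : ‖P.coeff D‖ = 1) (h0 : ‖P.coeff 0‖ < 1) :
    ∃ r, P.eval r = 0 ∧ ‖r‖ ^ D ≤ ‖P.coeff 0‖ := by
  classical
  by_contra! hcon
  have hP : P ≠ 0 := fun h => by simp [h] at hlead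
  have hfac := (IsAlgClosed.splits P).eq_prod_roots
  set S : Finset ℝ := insert 1 (P.roots.toFinset.image fun r => ‖r‖) with hS
  have hne : S.Nonempty := Finset.insert_nonempty _ _
  have hmem : ∀ x ∈ S, 0 ≤ x ∧ ‖P.coeff 0‖ < x ^ D := by
    intro x hx
    rcases Finset.mem_insert.1 hx with rfl | hx
    · simpa using h0
    · obtain ⟨r, hr, rfl⟩ := Finset.mem_image.1 hx
      exact ⟨norm_nonneg r, hcon r (Polynomial.mem_roots hP |>.1 (Multiset.mem_toFinset.1 hr))⟩
  obtain ⟨ht0, ht⟩ := hmem _ (S.min'_mem hne)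
  have hb := norm_coeff_prod_X_sub_C_le ht0 (S.min'_le _ (Finset.mem_insert_self _ _)) P.roots
    (fun r hr => S.min'_le _ (Finset.mem_insert_of_mem
      (Finset.mem_image_of_mem _ (Multiset.mem_toFinset.2 hr)))) D
  have e0 : ‖P.coeff 0‖ = ‖P.leadingCoeff‖ * (P.roots.map fun r => ‖r‖).prod := by
    conv_lhs => rw [hfac]
    rw [Polynomial.coeff_C_mul, norm_mul, Polynomial.coeff_zero_multiset_prod, Multiset.map_map]
    congr 1
    rw [← coe_nnnorm, ← nnnormHom_apply, map_multiset_prod, NNReal.coe_multiset_prod,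
      Multiset.map_map, Multiset.map_map]
    exact congrArg _ (Multiset.map_congr rfl fun r _ => by simp)
  have eD : ‖P.coeff D‖ = ‖P.leadingCoeff‖ *
      ‖((P.roots.map fun r => Polynomial.X - Polynomial.C r).prod).coeff D‖ := by
    conv_lhs => rw [hfac]
    rw [Polynomial.coeff_C_mul, norm_mul]
  have h1 := mul_le_mul_of_nonneg_left hb (norm_nonneg P.leadingCoeff)
  rw [← mul_assoc, ← eD, hlead, one_mul, ← e0] at h1
  exact absurd h1 (not_le.2 ht)

/-! ### Roots of series -/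

variable [CompleteSpace K]

lemma summable_coeff_mul_pow {f : PowerSeries K} {B : ℝ} (hf : ∀ b, ‖PowerSeries.coeff b f‖ ≤ B)
    {a : K} (ha : ‖a‖ < 1) (k : ℕ) : Summable fun j => PowerSeries.coeff (k + j) f * a ^ j := by
  refine NonarchimedeanAddGroup.summable_of_tendsto_cofinite_zero ?_
  rw [Nat.cofinite_eq_atTop]
  refine squeeze_zero_norm (a := fun j => B * ‖a‖ ^ j) (fun j => ?_) ?_
  · rw [norm_mul, norm_pow]
    exact mul_le_mul_of_nonneg_right (hf _) (by positivity)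
  · simpa using (tendsto_pow_atTop_nhds_zero_of_lt_one (norm_nonneg a) ha).const_mul B

lemma norm_ev₁_sub_trunc_le {f : PowerSeries K} (hf : IntegralSeries f) {a : K} (ha : ‖a‖ < 1)
    (N : ℕ) : ‖ev₁ f a - (PowerSeries.trunc N f).eval a‖ ≤ ‖a‖ ^ N := by
  rw [← ev₁_coe, ev₁, ev₁, ← ev_sub (conv_of_integral hf fun _ => ha)]
  swap
  · refine conv_of_integral (integralSeries_powerSeries_iff.2 fun b => ?_) fun _ => ha
    rw [Polynomial.coeff_coe, PowerSeries.coeff_trunc]
    split_ifs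
    · exact hf _
    · simp
  refine norm_ev_le_pow ?_ (fun d hd => ?_) (norm_nonneg a) ha.le fun _ => le_rfl
  · refine integralSeries_powerSeries_iff.2 fun b => ?_
    rw [map_sub, Polynomial.coeff_coe, PowerSeries.coeff_trunc]
    split_ifs
    · simp
    · rw [sub_zero]; exact hf _
  · rw [Finsupp.unique_single d] at hd ⊢
    rw [Finsupp.degree_single] at hd
    show PowerSeries.coeff _ (f - _) = 0
    rw [map_sub, Polynomial.coeff_coe, PowerSeries.coeff_trunc, if_pos hd, sub_self]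

lemma ev₁_sub_coeff_zero_le {f : PowerSeries K} (hf : IntegralSeries f) {a : K} (ha : ‖a‖ < 1) :
    ‖ev₁ f a - PowerSeries.coeff 0 f‖ ≤ ‖a‖ := by
  simpa [Polynomial.eval_eq_sum_range' (n := 1) (PowerSeries.natDegree_trunc_lt f 0),
    PowerSeries.coeff_trunc] using norm_ev₁_sub_trunc_le hf ha 1

/-- (1) A root of norm below one. -/
theorem RootShape.exists_root [IsAlgClosed K] {f : PowerSeries K} {D : ℕ} (h : RootShape f D)
    (hD : D ≠ 0) : ∃ w, ‖w‖ < 1 ∧ ‖w‖ ^ D ≤ ‖PowerSeries.coeff 0 f‖ ∧ ev₁ f w = 0 := by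
  let N : ℕ → ℕ := fun k => D * (k + 1) + 1
  let P : ℕ → Polynomial K := fun k => PowerSeries.trunc (N k) f
  have hN : ∀ k, D < N k := fun k => Nat.lt_succ_of_le (Nat.le_mul_of_pos_right _ k.succ_pos)
  have hP : ∀ k b, ‖(P k).coeff b‖ ≤ 1 := fun k b => by
    rw [PowerSeries.coeff_trunc]; split_ifs
    · exact h.coeff_le _
    · simp
  have hPe : ∀ k b, b ≤ D → (P k).coeff b = PowerSeries.coeff b f := fun k b hb => by
    rw [PowerSeries.coeff_trunc, if_pos (lt_of_le_of_lt hb (hN k))]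
  have hpos : 0 < D := Nat.pos_of_ne_zero hD
  obtain ⟨r₀, hr₀, hr₀D⟩ := exists_root_norm_pow_le (P := P 0) hD (by rw [hPe 0 D le_rfl, h.lead])
    (by rw [hPe 0 0 (zero_le)]; exact h.low 0 hpos)
  rw [hPe 0 0 (zero_le)] at hr₀D
  set ρ := ‖r₀‖ with hρ
  have hρ1 : ρ < 1 := (pow_lt_one_iff_of_nonneg (norm_nonneg _) hD).1 (hr₀D.trans_lt (h.low 0 hpos))
  have step : ∀ k r, (P k).eval r = 0 ∧ ‖r‖ ≤ ρ →
      ∃ r', ((P (k + 1)).eval r' = 0 ∧ ‖r'‖ ≤ ρ) ∧ ‖r - r'‖ ≤ ρ ^ (k + 1) := by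
    rintro k r ⟨hr, hrρ⟩
    have hr1 : ‖r‖ < 1 := hrρ.trans_lt hρ1
    have hδ : ‖((P (k + 1)).taylor r).coeff 0‖ ≤ (ρ ^ (k + 1)) ^ D := by
      have e := norm_sub_le_max_norm (ev₁ f r - (P k).eval r)
        (ev₁ f r - (P (k + 1)).eval r)
      rw [sub_sub_sub_cancel_left] at e
      rw [Polynomial.taylor_coeff_zero, ← pow_mul, mul_comm, ← sub_zero ((P (k + 1)).eval r), ← hr]
      refine e.trans (max_le ?_ ?_) <;>
        refine (norm_ev₁_sub_trunc_le h.integral hr1 _).trans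
          ((pow_le_pow_of_le_one (norm_nonneg r) hr1.le ?_).trans (pow_le_pow_left₀ (norm_nonneg r) hrρ _))
      · exact Nat.le_succ _
      · exact le_trans (Nat.mul_le_mul_left D (Nat.le_succ _)) (Nat.le_succ _)
    have hle : ρ ^ (k + 1) ≤ ρ := pow_le_of_le_one (norm_nonneg _) hρ1.le (by omega)
    have h1 : ρ ^ (k + 1) < 1 := hle.trans_lt hρ1
    have hT : ‖((P (k + 1)).taylor r).coeff D‖ = 1 := by
      rw [IsUltrametricDist.norm_eq_of_add_norm_lt_max (y := -(P (k + 1)).coeff D), norm_neg,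
        hPe _ D le_rfl, h.lead]
      refine lt_max_of_lt_right ?_
      rw [← sub_eq_add_neg, norm_neg]
      exact (norm_coeff_taylor (hP _) hr1.le D).trans_lt (hr1.trans_eq (by rw [hPe _ D le_rfl, h.lead]))
    obtain ⟨s, hs, hsD⟩ := exists_root_norm_pow_le hD hT
      (hδ.trans_lt (pow_lt_one₀ (pow_nonneg (norm_nonneg _) _) h1 hD))
    have hsρ : ‖s‖ ≤ ρ ^ (k + 1) :=
      le_of_pow_le_pow_left₀ hD (pow_nonneg (norm_nonneg _) _) (hsD.trans hδ)
    rw [Polynomial.taylor_eval] at hs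
    refine ⟨s + r, ⟨hs, (IsUltrametricDist.norm_add_le_max s r).trans (max_le (hsρ.trans hle) hrρ)⟩, ?_⟩
    rwa [sub_add_cancel_right, norm_neg]
  choose next hnext hdist using step
  let s : ∀ k, {r : K // (P k).eval r = 0 ∧ ‖r‖ ≤ ρ} := fun k =>
    Nat.rec ⟨r₀, hr₀, le_rfl⟩ (fun k r => ⟨next k r.1 r.2, hnext k r.1 r.2⟩) k
  have hcau : CauchySeq fun k => (s k).1 :=
    cauchySeq_of_le_geometric ρ ρ hρ1 fun k => by
      rw [dist_eq_norm, ← pow_succ']
      exact hdist k (s k).1 (s k).2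
  obtain ⟨w, hw⟩ := cauchySeq_tendsto_of_complete hcau
  have hwρ : ‖w‖ ≤ ρ := le_of_tendsto hw.norm (Eventually.of_forall fun k => (s k).2.2)
  refine ⟨w, hwρ.trans_lt hρ1, (pow_le_pow_left₀ (norm_nonneg w) hwρ D).trans hr₀D, ?_⟩
  have hev : ∀ k, ‖ev₁ f w‖ ≤ max ‖w - (s k).1‖ (ρ ^ k) := fun k => by
    have hk1 : ‖(s k).1‖ < 1 := (s k).2.2.trans_lt hρ1
    have e1 : ‖ev₁ f w - ev₁ f (s k).1‖ ≤ ‖w - (s k).1‖ :=
      norm_ev_sub_ev_le h.integral (fun _ => hwρ.trans_lt hρ1) (fun _ => hk1) (norm_nonneg _)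
        fun _ => le_rfl
    have e2 := norm_ev₁_sub_trunc_le h.integral hk1 (N k)
    rw [(s k).2.1, sub_zero] at e2
    calc ‖ev₁ f w‖ = ‖(ev₁ f w - ev₁ f (s k).1) + ev₁ f (s k).1‖ := by rw [sub_add_cancel]
      _ ≤ _ := (IsUltrametricDist.norm_add_le_max _ _).trans (max_le_max e1 (e2.trans
        ((pow_le_pow_left₀ (norm_nonneg _) (s k).2.2 _).trans
          (pow_le_pow_of_le_one (norm_nonneg _) hρ1.le
            (le_trans (Nat.le_succ k) (le_trans (Nat.le_mul_of_pos_left _ hpos) (Nat.le_succ _)))))))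
  have ht : Tendsto (fun k => max ‖w - (s k).1‖ (ρ ^ k)) atTop (𝓝 0) := by
    have h1 : Tendsto (fun k => ‖w - (s k).1‖) atTop (𝓝 0) := by
      simpa using ((hw.const_sub w).norm)
    simpa using h1.max (tendsto_pow_atTop_nhds_zero_of_lt_one (norm_nonneg r₀) hρ1)
  exact norm_le_zero_iff.1 (ge_of_tendsto ht (Eventually.of_forall hev))

omit [CompleteSpace K] in
lemma RootShape.sub_C {f : PowerSeries K} {D : ℕ} (h : RootShape f D) (hD : D ≠ 0) {a : K}
    (ha : ‖a‖ < 1) : RootShape (f - PowerSeries.C a) D where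
  integral := h.integral.sub (IntegralSeries.of_C ha.le)
  low b hb := by
    rw [map_sub, PowerSeries.coeff_C]
    refine (norm_sub_le_max_norm _ _).trans_lt (max_lt (h.low b hb) ?_)
    split_ifs <;> simp [ha]
  lead := by rw [map_sub, PowerSeries.coeff_C, if_neg hD, sub_zero, h.lead]

lemma ev₁_sub_C {f : PowerSeries K} (hf : IntegralSeries f) {w : K} (hw : ‖w‖ < 1) (a : K) :
    ev₁ (f - PowerSeries.C a) w = ev₁ f w - a := by
  exact (ev_sub (conv_of_integral hf fun _ => hw) (conv_C a _)).trans (by rw [ev_C]; rfl)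

/-- (1') Preimages of small elements. -/
theorem RootShape.exists_preimage [IsAlgClosed K] {f : PowerSeries K} {D : ℕ} (h : RootShape f D)
    (hD : D ≠ 0) {a : K} (ha : ‖a‖ < 1) :
    ∃ w, ‖w‖ < 1 ∧ ‖w‖ ^ D ≤ ‖PowerSeries.coeff 0 f - a‖ ∧ ev₁ f w = a := by
  obtain ⟨w, h1, h2, h3⟩ := (h.sub_C hD ha).exists_root hD
  refine ⟨w, h1, ?_, sub_eq_zero.1 (by rwa [← ev₁_sub_C h.integral h1])⟩
  simpa [PowerSeries.coeff_C] using h2

/-! ### Division by roots -/

lemma exists_eq_X_sub_C_mul {f : PowerSeries K} {B : ℝ} (hf : ∀ b, ‖PowerSeries.coeff b f‖ ≤ B)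
    {w : K} (hw : ‖w‖ < 1) (h0 : ev₁ f w = 0) :
    ∃ q : PowerSeries K, f = (PowerSeries.X - PowerSeries.C w) * q ∧
      (∀ b, ‖PowerSeries.coeff b q‖ ≤ B) ∧
      ∀ b, PowerSeries.coeff b q = PowerSeries.coeff (b + 1) f + w * PowerSeries.coeff (b + 1) q := by
  have hB : 0 ≤ B := (norm_nonneg _).trans (hf 0)
  set q : PowerSeries K := PowerSeries.mk fun b => ∑' j, PowerSeries.coeff (b + 1 + j) f * w ^ j
    with hq
  have hrec : ∀ k, (∑' j, PowerSeries.coeff (k + j) f * w ^ j) =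
      PowerSeries.coeff k f + w * ∑' j, PowerSeries.coeff (k + 1 + j) f * w ^ j := fun k => by
    rw [(summable_coeff_mul_pow hf hw k).tsum_eq_zero_add, pow_zero, mul_one, add_zero,
      ← tsum_mul_left]
    congr 1
    refine tsum_congr fun j => ?_
    rw [show k + (j + 1) = k + 1 + j by omega, pow_succ]
    ring
  have hq' : ∀ b, PowerSeries.coeff b q =
      PowerSeries.coeff (b + 1) f + w * PowerSeries.coeff (b + 1) q := fun b => by
    rw [hq, PowerSeries.coeff_mk, PowerSeries.coeff_mk, hrec]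
  refine ⟨q, PowerSeries.ext fun b => ?_, fun b => ?_, hq'⟩
  · rcases b with _ | b
    · rw [sub_mul, map_sub, PowerSeries.coeff_zero_X_mul, PowerSeries.coeff_C_mul, zero_sub, hq,
        PowerSeries.coeff_mk]
      have := hrec 0
      simp only [zero_add] at this ⊢
      rw [← ev₁_eq_tsum, h0] at this
      linear_combination -this
    · rw [sub_mul, map_sub, PowerSeries.coeff_succ_X_mul, PowerSeries.coeff_C_mul, hq' b]
      ring
  · rw [hq, PowerSeries.coeff_mk]
    refine norm_tsum_le_of_forall hB fun j => ?_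
    rw [norm_mul, norm_pow]
    exact (mul_le_of_le_one_right (norm_nonneg _) (pow_le_one₀ (norm_nonneg w) hw.le)).trans (hf _)

/-- (2) Division by a root lowers `D`. -/
theorem RootShape.exists_div {f : PowerSeries K} {D : ℕ} (h : RootShape f D) {w : K}
    (hw : ‖w‖ < 1) (h0 : ev₁ f w = 0) :
    D ≠ 0 ∧ ∃ q, RootShape q (D - 1) ∧ f = (PowerSeries.X - PowerSeries.C w) * q := by
  have hD : D ≠ 0 := fun hD => by
    have := ev₁_sub_coeff_zero_le h.integral hw
    rw [h0, zero_sub, norm_neg] at this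
    exact absurd (this.trans_lt hw) (by rw [← hD, h.lead]; exact lt_irrefl 1)
  obtain ⟨q, hq, hq1, hrec⟩ := exists_eq_X_sub_C_mul h.coeff_le hw h0
  have hsmall : ∀ b, ‖w * PowerSeries.coeff b q‖ < 1 := fun b => by
    rw [norm_mul]
    exact (mul_le_of_le_one_right (norm_nonneg w) (hq1 b)).trans_lt hw
  refine ⟨hD, q, ⟨integralSeries_powerSeries_iff.2 hq1, fun b hb => ?_, ?_⟩, hq⟩
  · rw [hrec]
    exact (IsUltrametricDist.norm_add_le_max _ _).trans_lt
      (max_lt (h.low _ (by omega)) (hsmall _))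
  · rw [hrec, show D - 1 + 1 = D by omega, IsUltrametricDist.norm_add_eq_max_of_norm_ne_norm
      (by rw [h.lead]; exact (hsmall D).ne'), h.lead, max_eq_left (hsmall D).le]

lemma ev₁_X_sub_C_mul {q : PowerSeries K} {B : ℝ} (hq : ∀ b, ‖PowerSeries.coeff b q‖ ≤ B)
    (w : K) {z : K} (hz : ‖z‖ < 1) :
    ev₁ ((PowerSeries.X - PowerSeries.C w) * q) z = (z - w) * ev₁ q z := by
  have hc : Conv (q : MvPowerSeries Unit K) fun _ => z :=
    conv_of_bound (C := B) (R := 1) zero_le_one (norm_nonneg z) (by rwa [one_mul])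
      (fun d => by rw [one_pow, mul_one, Finsupp.unique_single d]; exact hq _) fun _ => le_rfl
  have e : ev (PowerSeries.X - PowerSeries.C w : PowerSeries K) (fun _ : Unit => z) = z - w :=
    (ev_sub (conv_X () _) (conv_C w _)).trans (by rw [ev_X, ev_C])
  have hc' : Conv (PowerSeries.X - PowerSeries.C w : PowerSeries K) (fun _ : Unit => z) :=
    (conv_X () _).sub (conv_C w _)
  rw [ev₁, ev₁, ev_mul hc' hc, e]

lemma RootShape.ev₁_ne_zero {f : PowerSeries K} (h : RootShape f 0) {z : K} (hz : ‖z‖ < 1) :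
    ev₁ f z ≠ 0 := fun h0 => (h.exists_div hz h0).1 rfl

omit [IsUltrametricDist K] [CompleteSpace K] in
lemma RootShape.isUnit {f : PowerSeries K} (h : RootShape f 0) : IsUnit f := by
  rw [PowerSeries.isUnit_iff_constantCoeff, isUnit_iff_ne_zero,
    ← PowerSeries.coeff_zero_eq_constantCoeff_apply]
  intro h0
  simpa [h0] using h.lead

lemma ev₁_prod_X_sub_C_mul {q : PowerSeries K} (hq : IntegralSeries q) {z : K} (hz : ‖z‖ < 1) :
    ∀ s : Multiset K, (∀ w ∈ s, ‖w‖ < 1) →
      IntegralSeries ((s.map fun w => PowerSeries.X - PowerSeries.C w).prod * q) ∧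
      ev₁ ((s.map fun w => PowerSeries.X - PowerSeries.C w).prod * q) z =
        (s.map fun w => z - w).prod * ev₁ q z := by
  intro s
  induction s using Multiset.induction_on with
  | empty => intro _; simp [hq]
  | cons w s ih =>
    intro hs
    obtain ⟨h1, h2⟩ := ih fun x hx => hs x (Multiset.mem_cons_of_mem hx)
    simp only [Multiset.map_cons, Multiset.prod_cons, mul_assoc]
    exact ⟨((IntegralSeries.X ()).sub (IntegralSeries.of_C (hs w (Multiset.mem_cons_self w s)).le)).mul h1,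
      by rw [ev₁_X_sub_C_mul (integralSeries_powerSeries_iff.1 h1) w hz, h2]⟩

/-- (3) Distinct small roots split off. -/
theorem RootShape.exists_prod_div [DecidableEq K] (S : Finset K) :
    ∀ {f : PowerSeries K} {D : ℕ}, RootShape f D → (∀ w ∈ S, ‖w‖ < 1 ∧ ev₁ f w = 0) →
      S.card ≤ D ∧ ∃ q, RootShape q (D - S.card) ∧
        f = (∏ w ∈ S, (PowerSeries.X - PowerSeries.C w)) * q := by
  induction S using Finset.induction_on with
  | empty => intro f D h _; exact ⟨Nat.zero_le _, f, by simpa using h, by simp⟩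
  | insert w S hw ih =>
    intro f D h hS
    obtain ⟨hw1, hw0⟩ := hS w (Finset.mem_insert_self w S)
    obtain ⟨hD, q, hq, hfq⟩ := h.exists_div hw1 hw0
    have hq0 : ∀ z ∈ S, ‖z‖ < 1 ∧ ev₁ q z = 0 := fun z hz => by
      obtain ⟨hz1, hz0⟩ := hS z (Finset.mem_insert_of_mem hz)
      rw [hfq, ev₁_X_sub_C_mul hq.coeff_le w hz1, mul_eq_zero, sub_eq_zero] at hz0
      exact ⟨hz1, hz0.resolve_left fun e => hw (e ▸ hz)⟩
    obtain ⟨hle, u, hu, hqu⟩ := ih hq hq0
    rw [Finset.card_insert_of_notMem hw]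
    refine ⟨by omega, u, ?_, ?_⟩
    · rwa [show D - (S.card + 1) = D - 1 - S.card by omega]
    · rw [Finset.prod_insert hw, mul_assoc, ← hqu, ← hfq]

theorem RootShape.card_roots_le {f : PowerSeries K} {D : ℕ} (h : RootShape f D) {S : Finset K}
    (hS : ∀ w ∈ S, ‖w‖ < 1 ∧ ev₁ f w = 0) : S.card ≤ D := by
  classical
  exact (h.exists_prod_div S hS).1

/-- (3') `D` distinct small roots are all the small roots, with unit cofactor. -/
theorem RootShape.eq_prod_mul_unit {f : PowerSeries K} {D : ℕ} (h : RootShape f D) {S : Finset K}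
    (hS : ∀ w ∈ S, ‖w‖ < 1 ∧ ev₁ f w = 0) (hcard : S.card = D) :
    (∀ z, ‖z‖ < 1 → ev₁ f z = 0 → z ∈ S) ∧ ∃ u, RootShape u 0 ∧ IsUnit u ∧
      f = (∏ w ∈ S, (PowerSeries.X - PowerSeries.C w)) * u := by
  classical
  obtain ⟨-, u, hu, hfu⟩ := h.exists_prod_div S hS
  rw [hcard, Nat.sub_self] at hu
  refine ⟨fun z hz hz0 => ?_, u, hu, hu.isUnit, hfu⟩
  by_contra hzS
  have := h.card_roots_le (S := insert z S) fun w hw => by
    rcases Finset.mem_insert.1 hw with rfl | hw
    · exact ⟨hz, hz0⟩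
    · exact hS w hw
  rw [Finset.card_insert_of_notMem hzS] at this
  omega

/-- All small roots with multiplicity. -/
theorem RootShape.exists_multiset [IsAlgClosed K] : ∀ {D : ℕ} {f : PowerSeries K}, RootShape f D →
    ∃ s : Multiset K, Multiset.card s = D ∧ (∀ w ∈ s, ‖w‖ < 1) ∧ ∃ u, RootShape u 0 ∧
      f = (s.map fun w => PowerSeries.X - PowerSeries.C w).prod * u := by
  intro D
  induction D with
  | zero => intro f h; exact ⟨0, rfl, by simp, f, h, by simp⟩
  | succ D ih =>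
    intro f h
    obtain ⟨w, hw, -, hw0⟩ := h.exists_root (Nat.succ_ne_zero D)
    obtain ⟨-, q, hq, hfq⟩ := h.exists_div hw hw0
    obtain ⟨s, hs, hs1, u, hu, hqu⟩ := ih (f := q) hq
    refine ⟨w ::ₘ s, by simp [hs], ?_, u, hu, ?_⟩
    · simpa using ⟨hw, hs1⟩
    · rw [Multiset.map_cons, Multiset.prod_cons, mul_assoc, ← hqu, ← hfq]

omit [CompleteSpace K] in
lemma norm_coeff_prod_le {ρ : ℝ} (hρ : 0 ≤ ρ) (S : Finset K) (hS : ∀ w ∈ S, ‖w‖ ≤ ρ)
    (h1 : ∀ w ∈ S, ‖w‖ ≤ 1) :
    IntegralSeries (∏ w ∈ S, (PowerSeries.X - PowerSeries.C w : PowerSeries K)) ∧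
      ∀ b, b < S.card →
        ‖PowerSeries.coeff b (∏ w ∈ S, (PowerSeries.X - PowerSeries.C w : PowerSeries K))‖ ≤ ρ := by
  classical
  induction S using Finset.induction_on with
  | empty => exact ⟨by simpa using IntegralSeries.one, by simp⟩
  | insert w S hw ih =>
    obtain ⟨hI, hb⟩ := ih (fun x hx => hS x (Finset.mem_insert_of_mem hx))
      fun x hx => h1 x (Finset.mem_insert_of_mem hx)
    have hw1 := h1 w (Finset.mem_insert_self w S)
    have hwρ := hS w (Finset.mem_insert_self w S)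
    rw [Finset.prod_insert hw]
    refine ⟨((IntegralSeries.X ()).sub (IntegralSeries.of_C hw1)).mul hI, fun b hb' => ?_⟩
    rw [Finset.card_insert_of_notMem hw] at hb'
    rw [sub_mul, map_sub, PowerSeries.coeff_C_mul]
    refine (norm_sub_le_max_norm _ _).trans (max_le ?_ ?_)
    · rcases b with _ | b
      · simpa using hρ
      · rw [PowerSeries.coeff_succ_X_mul]
        exact hb b (by omega)
    · rw [norm_mul]
      exact (mul_le_of_le_one_right (norm_nonneg w) (integralSeries_powerSeries_iff.1 hI b)).trans hwρ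

/-- (4) A series vanishing at many small points has small low coefficients. -/
theorem norm_coeff_le_of_vanish {s : PowerSeries K} {B : ℝ}
    (hB : ∀ b, ‖PowerSeries.coeff b s‖ ≤ B) {S : Finset K} {ρ : ℝ} (hρ : 0 ≤ ρ)
    (hS : ∀ w ∈ S, ‖w‖ ≤ ρ ∧ ‖w‖ < 1 ∧ ev₁ s w = 0) {b : ℕ} (hb : b < S.card) :
    ‖PowerSeries.coeff b s‖ ≤ ρ * B := by
  classical
  have key : ∀ T : Finset K, T ⊆ S → ∃ q : PowerSeries K, (∀ b, ‖PowerSeries.coeff b q‖ ≤ B) ∧
      s = (∏ w ∈ T, (PowerSeries.X - PowerSeries.C w)) * q ∧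
      ∀ z ∈ S, z ∉ T → ev₁ q z = 0 := by
    intro T
    induction T using Finset.induction_on with
    | empty => exact fun _ => ⟨s, hB, by simp, fun z hz _ => (hS z hz).2.2⟩
    | insert w T hw ih =>
      intro hT
      obtain ⟨hwS, hTS⟩ := Finset.insert_subset_iff.1 hT
      obtain ⟨q, hq, hsq, hq0⟩ := ih hTS
      obtain ⟨q', hqq', hq', -⟩ := exists_eq_X_sub_C_mul hq (hS w hwS).2.1 (hq0 w hwS hw)
      refine ⟨q', hq', ?_, fun z hz hzT => ?_⟩
      · rw [Finset.prod_insert hw, hsq, hqq']; ring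
      · rw [Finset.mem_insert, not_or] at hzT
        have := hq0 z hz hzT.2
        rw [hqq', ev₁_X_sub_C_mul hq' w (hS z hz).2.1, mul_eq_zero, sub_eq_zero] at this
        exact this.resolve_left hzT.1
  obtain ⟨q, hq, hsq, -⟩ := key S subset_rfl
  obtain ⟨-, hP⟩ := norm_coeff_prod_le hρ S (fun w hw => (hS w hw).1) fun w hw => (hS w hw).2.1.le
  rw [hsq, PowerSeries.coeff_mul]
  refine IsUltrametricDist.norm_sum_le_of_forall_le_of_nonneg
    (mul_nonneg hρ ((norm_nonneg _).trans (hB 0))) fun x hx => ?_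
  rw [norm_mul]
  have := Finset.HasAntidiagonal.mem_antidiagonal.1 hx
  exact mul_le_mul (hP x.1 (by omega)) (hq x.2) (norm_nonneg _) hρ

end Vale.Agent.P217
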