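/-
P217: interface for valued points.
-/
import Mathlib

namespace Vale.Agent.P217

/-- A Noetherian domain with a minimal prime over a nonzero element embeds in a complete algebraically
closed nonarchimedean field with that prime as centre. -/
def RankOneStatement : Prop :=
  ∀ (A : Type) [CommRing A] [IsDomain A] [IsNoetherianRing A] (t : A) (a : Ideal A), t ≠ 0 →
    a ∈ (Ideal.span {t}).minimalPrimes →
      ∃ (K : Type) (_ : NormedField K) (_ : CompleteSpace K) (x : A →+* K),
        IsUltrametricDist K ∧ IsAlgClosed K ∧ Function.Injective x ∧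
          (∀ b, ‖x b‖ ≤ 1) ∧ ∀ b, ‖x b‖ < 1 ↔ b ∈ a

end Vale.Agent.P217
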