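/-
P217: the two halves of the orbit block (charts along towers of torsion points, Newton polygon).
-/
import Vale.Agent.P217.SpecPos

namespace Vale.Agent.P217

open Filter

variable (p n : ℕ) [Fact p.Prime]

/-- A tower `x_0 = 0, x_1 = tor, e(x_{k+1}) = x_k` of small points. -/
structure Tower {F : FormalGroup (LT p n)} {h : ℕ} {hh : 1 ≤ h} {P : Ideal (LT p n)}
    {e : PowerSeries (LT p n)} {K : Type} [NormedField K] (G : GoodPoint p n F h hh P e K) where
  pts : ℕ → Fin (n - h) → K
  pts_zero : ∀ l, pts 0 l = 0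
  pts_one : ∀ l, pts 1 l = G.tor l
  small : ∀ k l, ‖pts k l‖ < 1
  step : ∀ k l, ev₁ (PowerSeries.map G.x e) (pts (k + 1) l) = pts k l

variable {p n}

/-- The Teichmüller constant `α` at the point. -/
noncomputable def constAt {K : Type} [CommRing K] (x : LT p n →+* K) (α : Res p n) : K :=
  x (MvPowerSeries.C (WittVector.teichmuller p α))

/-- The approximations `e^m (α x_m^(p^M))` of the slot point. -/
noncomputable def slotSeq {F : FormalGroup (LT p n)} {h : ℕ} {hh : 1 ≤ h} {P : Ideal (LT p n)}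
    {e : PowerSeries (LT p n)} {K : Type} [NormedField K] {G : GoodPoint p n F h hh P e K}
    (T : Tower p n G) (α : Res p n) (M : ℕ) (l : Fin (n - h)) (m : ℕ) : K :=
  (ev₁ (PowerSeries.map G.x e))^[m] (constAt G.x α * T.pts m l ^ p ^ M)

/-- The slot point `π_0(α, M)`. -/
noncomputable def slotPt {F : FormalGroup (LT p n)} {h : ℕ} {hh : 1 ≤ h} {P : Ideal (LT p n)}
    {e : PowerSeries (LT p n)} {K : Type} [NormedField K] {G : GoodPoint p n F h hh P e K}
    (T : Tower p n G) (α : Res p n) (M : ℕ) (l : Fin (n - h)) : K :=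
  limUnder atTop (slotSeq T α M l)

/-- Properties of the change of coordinate `τ` used by both halves. -/
def IsUnipotentCoordinate {F : FormalGroup (LT p n)} {h : ℕ} {hh : 1 ≤ h} {P : Ideal (LT p n)}
    {e : PowerSeries (LT p n)} {K : Type} [NormedField K] (G : GoodPoint p n F h hh P e K)
    (τ : PowerSeries K) : Prop :=
  PowerSeries.constantCoeff τ = 0 ∧ (∀ b, ‖PowerSeries.coeff b τ‖ ≤ 1) ∧
    PowerSeries.coeff 1 τ ^ (p ^ h - 1) = G.x (par p n h)

variable (p n)

/-- Block F4a (CHART): along every tower, the deep orbit lies on `P` in unipotent coordinates. -/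
def ChartStatement : Prop :=
  ∀ F : FormalGroup (LT p n), IsUniversalLaw p n F → ∀ e, IsPSeries p n e →
    ∀ h (hh : 1 ≤ h), h < n → ∀ P : Ideal (LT p n), P.IsPrime → heightIdeal p n h ≤ P →
      par p n h ∉ P → DeepInvariant p n F P →
      ∀ (K : Type) [NormedField K] [CompleteSpace K], IsUltrametricDist K → IsAlgClosed K →
        CharP K p → ∀ (G : GoodPoint p n F h hh P e K) (T : Tower p n G),
        ∃ (H : FormalGroup K) (τ : PowerSeries K)
          (g : Fin (n - h - G.delta) → MvPowerSeries (Fin (n - h)) K),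
          (∀ d, MvPowerSeries.coeff d H.toPowerSeries ^ p ^ h =
            MvPowerSeries.coeff d H.toPowerSeries) ∧
          IsUnipotentCoordinate G τ ∧
          (∀ i, MvPowerSeries.constantCoeff (g i) = 0) ∧
          LinearIndependent K (fun (i : Fin (n - h - G.delta)) (j : Fin (n - h)) =>
            MvPowerSeries.coeff (Finsupp.single j 1) (g i)) ∧
          ∀ (ι : Type) [Finite ι] (α : ι → Res p n) (M : ι → ℕ) (σ : ι → ℝ)
            (v : Fin (n - h) → ℝ), (∀ l, 1 ≤ v l) → (∀ i, 0 < σ i ∧ σ i < 1) →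
            (∀ i l, ‖ev₁ τ (slotPt T (α i) (M i) l)‖ ≤ σ i ^ v l) →
            ∀ f ∈ Ideal.span (Set.range g), VanishesOnOrbit (p ^ h) v H.toPowerSeries
              (fun i l => ev₁ τ (slotPt T (α i) (M i) l)) f

/-- Block F4b (NEWTON): a tower and slots with independent leading terms. -/
def NewtonStatement : Prop :=
  ∀ F : FormalGroup (LT p n), IsUniversalLaw p n F → ∀ e, IsPSeries p n e →
    ∀ h (hh : 1 ≤ h), h < n → ∀ P : Ideal (LT p n), P.IsPrime → heightIdeal p n h ≤ P →
      par p n h ∉ P →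
      ∀ (K : Type) [NormedField K] [CompleteSpace K], IsUltrametricDist K → IsAlgClosed K →
        CharP K p → ∀ G : GoodPoint p n F h hh P e K,
        ∃ T : Tower p n G, ∀ τ : PowerSeries K, IsUnipotentCoordinate G τ →
          ∃ (ι : Type) (_ : Finite ι) (α : ι → Res p n) (M : ι → ℕ) (σ : ι → ℝ)
            (v : Fin (n - h) → ℝ),
            (∀ l, 1 ≤ v l) ∧ (∀ i, 0 < σ i ∧ σ i < 1) ∧
            (∀ i l, ‖ev₁ τ (slotPt T (α i) (M i) l)‖ ≤ σ i ^ v l) ∧
            ResiduesIndependent p h v σ (fun i l => ev₁ τ (slotPt T (α i) (M i) l))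
              (insert G.extra G.good)

variable {p n}

theorem orbit_of_parts (hc : ChartStatement p n) (hn : NewtonStatement p n) :
    OrbitStatement p n := by
  intro F hF e he h hh hlt P hP hle hu hd K i1 i2 hult hac hchar G
  obtain ⟨T, hT⟩ := hn F hF e he h hh hlt P hP hle hu K hult hac hchar G
  obtain ⟨H, τ, g, hH, hτ, hg0, hgl, hvan⟩ := hc F hF e he h hh hlt P hP hle hu hd K hult hac hchar G T
  obtain ⟨ι, iF, α, M, σ, v, hv, hσ, hw, hres⟩ := hT τ hτ
  exact ⟨H, ι, iF, v, σ, _, g, hH, hv, hσ, hw, hres, hg0, hgl, hvan ι α M σ v hv hσ hw⟩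

end Vale.Agent.P217
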