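/-
P217 FIELD: valued points of Noetherian domains.
-/
import Vale.Agent.P217.SpecField
import Vale.Agent.P217.RankOne.RealValuation
import Vale.Agent.P217.RankOne.AlgClosed

namespace Vale.Agent.P217

open RankOne

section

variable {A : Type} [CommRing A] [IsDomain A] [IsNoetherianRing A]

/-- Below a minimal prime of a principal ideal there is only the zero prime. -/
theorem RankOne.exists_pow_dvd {t : A} {q : Ideal A} (hq : q ∈ (Ideal.span {t}).minimalPrimes)
    {b : A} (hb : b ≠ 0) {y : A} (hy : y ∈ q) : ∃ k, ∃ s ∉ q, ∃ c, s * y ^ k = c * b := by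
  have := hq.isPrime
  let S : Submonoid A :=
    { carrier := {z | ∃ k, ∃ s ∉ q, z = s * y ^ k}
      one_mem' := ⟨0, 1, hq.isPrime.one_notMem, by simp⟩
      mul_mem' := by
        rintro _ _ ⟨k, s, hs, rfl⟩ ⟨k', s', hs', rfl⟩
        exact ⟨k + k', s * s', hq.isPrime.mul_notMem hs hs', by ring⟩ }
  by_contra hcon
  push Not at hcon
  have hdis : Disjoint ((Ideal.span {b} : Ideal A) : Set A) (S : Set A) := by
    rw [Set.disjoint_left]
    rintro z hz ⟨k, s, hs, rfl⟩
    obtain ⟨c, hc⟩ := Ideal.mem_span_singleton'.1 hz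
    exact hcon k s hs c hc.symm
  obtain ⟨P, hP, hbP, hPS⟩ := Ideal.exists_le_prime_disjoint _ _ hdis
  rw [Ideal.span_singleton_le_iff_mem] at hbP
  have hle : P ≤ q := fun z hz => by
    by_contra h
    exact Set.disjoint_left.1 hPS hz ⟨0, z, h, by simp⟩
  rcases hle.lt_or_eq with hlt | heq
  · have h1 := Ideal.height_strict_mono_of_isPrime_of_isPrime hlt
    have h2 := Ideal.height_le_one_of_isPrincipal_of_mem_minimalPrimes _ _ hq
    have h3 : P.height = 0 := by
      have := lt_of_lt_of_le h1 h2
      exact Order.lt_one_iff.1 this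
    rw [Ideal.height_eq_zero_iff_eq_bot.1 h3, Ideal.mem_bot] at hbP
    exact hb hbP
  · exact Set.disjoint_left.1 hPS (heq ▸ hy) ⟨1, 1, hq.isPrime.one_notMem, by simp⟩

/-- The absolute value on the fraction field. -/
theorem RankOne.exists_absoluteValue {t : A} {q : Ideal A} (ht : t ≠ 0)
    (hq : q ∈ (Ideal.span {t}).minimalPrimes) :
    ∃ f : AbsoluteValue (FractionRing A) ℝ, (∀ x y, f (x + y) ≤ max (f x) (f y)) ∧
      (∀ b, f (algebraMap A _ b) ≤ 1) ∧ ∀ b, f (algebraMap A _ b) < 1 ↔ b ∈ q := by
  have := hq.isPrime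
  have htq : t ∈ q := hq.le (Ideal.mem_span_singleton_self t)
  let Q := FractionRing A
  let R := Localization.AtPrime q
  have hinj : Function.Injective (algebraMap A Q) := IsFractionRing.injective A Q
  have hunit : ∀ s : q.primeCompl, IsUnit (algebraMap A Q s) := fun s =>
    isUnit_iff_ne_zero.2 ((map_ne_zero_iff _ hinj).2 fun h0 => s.2 (h0 ▸ q.zero_mem))
  let φ : R →+* Q := IsLocalization.lift hunit
  have hφ : ∀ b, φ (algebraMap A R b) = algebraMap A Q b := IsLocalization.lift_eq hunit
  have hφinj : Function.Injective φ := (injective_iff_map_eq_zero φ).2 fun r hr => by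
    obtain ⟨a, s, rfl⟩ := IsLocalization.exists_mk'_eq q.primeCompl r
    have h1 := congrArg φ (IsLocalization.mk'_spec R a s)
    rw [map_mul, hr, zero_mul, hφ] at h1
    rw [(map_eq_zero_iff _ hinj).1 h1.symm, IsLocalization.mk'_zero]
  have hne : (IsLocalRing.maximalIdeal R).map φ.rangeRestrict ≠ ⊤ := fun htop => by
    obtain ⟨r, hr, hr1⟩ := (Ideal.mem_map_iff_of_surjective _ φ.rangeRestrict_surjective).1
      ((Ideal.eq_top_iff_one _).1 htop)
    have : φ r = φ 1 := by rw [map_one]; exact congrArg Subtype.val hr1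
    rw [hφinj this] at hr
    exact (IsLocalRing.maximalIdeal.isMaximal R).ne_top ((Ideal.eq_top_iff_one _).2 hr)
  obtain ⟨V, hV, hVn⟩ := Ideal.image_subset_nonunits_valuationSubring _ hne
  let v := V.valuation
  have hle : ∀ r, v (φ r) ≤ 1 := fun r =>
    (V.valuation_le_one_iff _).2 (hV ⟨r, rfl⟩)
  have hleA : ∀ b, v (algebraMap A Q b) ≤ 1 := fun b => by rw [← hφ]; exact hle _
  have hone : ∀ s ∉ q, v (algebraMap A Q s) = 1 := fun s hs => by
    obtain ⟨u, hu⟩ := IsLocalization.map_units R (⟨s, hs⟩ : q.primeCompl)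
    refine le_antisymm (hleA s) ?_
    calc (1 : _) = v (φ (u : R)) * v (φ ((u⁻¹ : Rˣ) : R)) := by
          rw [← map_mul, ← map_mul, Units.mul_inv, map_one, map_one]
      _ ≤ v (φ (u : R)) * 1 := mul_le_mul_right (hle _) _
      _ = v (algebraMap A Q s) := by rw [mul_one, hu, hφ]
  set γ := v (algebraMap A Q t) with hγ
  have hγ1 : γ < 1 := by
    have hm : φ.rangeRestrict (algebraMap A R t) ∈ (IsLocalRing.maximalIdeal R).map φ.rangeRestrict :=
      Ideal.mem_map_of_mem _ ((IsLocalization.AtPrime.to_map_mem_maximal_iff R q t).2 htq)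
    have := V.mem_nonunits_iff.1 (hVn ⟨_, hm, rfl⟩)
    rw [hγ, ← hφ]
    exact this
  have hγ0 : 0 < γ := zero_lt_iff.2 fun h => ht ((map_eq_zero_iff _ hinj).1 ((map_eq_zero v).1 h))
  have hpow : ∀ b : A, b ≠ 0 → ∃ k : ℕ, γ ^ k ≤ v (algebraMap A Q b) := fun b hb => by
    obtain ⟨k, s, hs, c, hc⟩ := exists_pow_dvd hq hb htq
    refine ⟨k, ?_⟩
    have := congrArg (fun a => v (algebraMap A Q a)) hc
    simp only [map_mul, map_pow, hone s hs, one_mul] at this
    rw [hγ, this]
    exact mul_le_of_le_one_left' (hleA c)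
  have hb : Bounded v γ := by
    refine ⟨hγ0, hγ1, fun x hx => ?_⟩
    obtain ⟨b, c, hc, rfl⟩ := IsFractionRing.div_surjective (A := A) x
    have hc0 : c ≠ 0 := nonZeroDivisors.ne_zero hc
    have hb0 : b ≠ 0 := fun h => hx (by simp [h])
    obtain ⟨i, hi⟩ := hpow b hb0
    obtain ⟨j, hj⟩ := hpow c hc0
    refine ⟨max i j, ?_, ?_⟩
    · rw [zpow_natCast, map_div₀]
      exact (pow_le_pow_right_of_le_one' hγ1.le (le_max_left i j)).trans (hi.trans
        ((le_div_iff₀ (zero_lt_iff.2 fun h => hc0 ((map_eq_zero_iff _ hinj).1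
          ((map_eq_zero v).1 h)))).2 (mul_le_of_le_one_right' (hleA c))))
    · rw [zpow_neg, zpow_natCast, map_div₀, div_eq_mul_inv]
      refine (mul_le_of_le_one_left' (hleA b)).trans (inv_anti₀ (pow_pos hγ0 _) ?_)
      exact (pow_le_pow_right_of_le_one' hγ1.le (le_max_right i j)).trans hj
  refine ⟨absVal hb, absFun_add_le_max hb, fun b => absVal_le_one hb (hleA b),
    fun b => ⟨fun h => ?_, fun hbq => ?_⟩⟩
  · by_contra hbq
    rw [absVal_eq_one hb (hone b hbq)] at h
    exact lt_irrefl _ h
  · obtain ⟨k, s, hs, c, hc⟩ := exists_pow_dvd hq ht hbq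
    have h1 := congrArg (fun a => v (algebraMap A Q a)) hc
    simp only [map_mul, map_pow, hone s hs, one_mul] at h1
    have h2 : v (algebraMap A Q b) ^ k ≤ γ := by rw [h1]; exact mul_le_of_le_one_left' (hleA c)
    rcases k.eq_zero_or_pos with rfl | hk
    · rw [pow_zero] at h2
      exact absurd h2 hγ1.not_ge
    · exact absVal_lt_one hb hk h2

/-- The FIELD statement. -/
theorem rankOne : RankOneStatement := by
  intro A _ _ _ t a ht ha
  obtain ⟨f, hna, hle1, hlt1⟩ := RankOne.exists_absoluteValue ht ha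
  have hinj : Function.Injective (algebraMap A (FractionRing A)) := IsFractionRing.injective A _
  let K1 := f.Completion
  let ι : FractionRing A →+* K1 :=
    UniformSpace.Completion.coeRingHom.comp (WithAbs.equiv f).symm.toRingHom
  have hι : ∀ z, ‖ι z‖ = f z := fun z => by
    show ‖((WithAbs.toAbs f z : WithAbs f) : K1)‖ = _
    rw [UniformSpace.Completion.norm_coe]
    rfl
  have hu1 : IsUltrametricDist K1 :=
    IsUltrametricDist.isUltrametricDist_of_forall_norm_add_le_max_norm fun x y => by
      refine UniformSpace.Completion.induction_on₂ x y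
        (isClosed_le (by fun_prop) (by fun_prop)) fun u w => ?_
      rw [← UniformSpace.Completion.coe_add, UniformSpace.Completion.norm_coe,
        UniformSpace.Completion.norm_coe, UniformSpace.Completion.norm_coe]
      exact hna _ _
  have hpos : 0 < f (algebraMap A _ t) := f.pos ((map_ne_zero_iff _ hinj).2 ht)
  letI : NontriviallyNormedField K1 :=
    { (inferInstance : NormedField K1) with
      non_trivial := ⟨(ι (algebraMap A _ t))⁻¹, by
        rw [norm_inv, hι]
        exact one_lt_inv₀ hpos |>.2 ((hlt1 t).2 (ha.le (Ideal.mem_span_singleton_self t)))⟩ }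
  let L1 := AlgebraicClosure K1
  letI : NontriviallyNormedField L1 := spectralNorm.nontriviallyNormedField K1 L1
  have hu2 : IsUltrametricDist L1 :=
    IsUltrametricDist.isUltrametricDist_of_forall_norm_add_le_max_norm
      (isNonarchimedean_spectralNorm (K := K1) (L := L1))
  let K := UniformSpace.Completion L1
  have hext : ∀ k : K1, ‖(algebraMap K1 L1 k : K)‖ = ‖k‖ := fun k => by
    rw [UniformSpace.Completion.norm_coe]
    exact spectralNorm_extends k
  let x : A →+* K := (UniformSpace.Completion.coeRingHom.comp (algebraMap K1 L1)).comp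
    (ι.comp (algebraMap A (FractionRing A)))
  have hx : ∀ b, ‖x b‖ = f (algebraMap A _ b) := fun b => (hext _).trans (hι _)
  refine ⟨K, inferInstance, inferInstance, x, ?_, ?_, ?_, fun b => (hx b).trans_le (hle1 b),
    fun b => by rw [hx]; exact hlt1 b⟩
  · exact IsUltrametricDist.isUltrametricDist_of_forall_norm_add_le_max_norm fun y z => by
      refine UniformSpace.Completion.induction_on₂ y z
        (isClosed_le (by fun_prop) (by fun_prop)) fun u w => ?_
      rw [← UniformSpace.Completion.coe_add, UniformSpace.Completion.norm_coe,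
        UniformSpace.Completion.norm_coe, UniformSpace.Completion.norm_coe]
      exact IsUltrametricDist.norm_add_le_max u w
  · exact RankOne.isAlgClosed_of_denseRange (K := L1) UniformSpace.Completion.denseRange_coe
  · refine (injective_iff_map_eq_zero x).2 fun b hb => ?_
    have := hx b
    rw [hb, norm_zero] at this
    exact (map_eq_zero_iff _ hinj).1 ((AbsoluteValue.eq_zero f).1 this.symm)

end

end Vale.Agent.P217
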