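/-
P217: the full answer from the two blocks still to be supplied (action, point).
-/
import Vale.Agent.P217.Assemble
import Vale.Agent.P217.Continuity
import Vale.Agent.P217.Count
import Vale.Agent.P217.RankOne
import Vale.Agent.P217.Easy.Main
import Vale.Agent.P217.Law.Main
import Vale.Agent.P217.Law.Facts
import Vale.Agent.P217.Generic.Main
import Vale.Agent.P217.Rigid.Main
import Vale.Agent.P217.Newton.Main
import Vale.Agent.P217.Orbit.Branch
import Vale.Agent.P217.Orbit.Coord
import Vale.Agent.P217.Orbit.Tangent
import Vale.Agent.P217.Orbit.Chart

namespace Vale.Agent.P217

/-- The main statement from the action block and the point block. -/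
theorem main_of_action_point
    (hA : ∀ p n, ∀ [Fact p.Prime], FactsStatement p n → 1 ≤ n → ActionStatement p n)
    (hP : ∀ p n, ∀ [Fact p.Prime], FactsStatement p n → RankOneStatement → PointStatement p n) :
    MainStatement := by
  refine main_of_blocks (fun p n _ _ => law p n)
    (fun p n _ hn => hA p n (facts p n hn) hn)
    (fun p n _ hn => continuityStatement_of_action (hA p n (facts p n hn) hn))
    (fun p n _ hn => easyStatement p n hn)
    (fun p n _ hn => Generic.heightZero hn rankOne (facts p n hn) (hA p n (facts p n hn) hn)
      (continuityStatement_of_action (hA p n (facts p n hn) hn)))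
    (fun p n _ hn => ?_)
  have hact := hA p n (facts p n hn) hn
  refine positive_of_blocks (pSeries p n) (hP p n (facts p n hn) rankOne) (rigid p) count
    (orbit_of_parts ?_ (Newton.newton (facts p n hn)))
  exact chart (facts p n hn) hact (continuityStatement_of_action hact) (branch (facts p n hn))
    (tangent (facts p n hn)) (coord (facts p n hn) (branch (facts p n hn)))

end Vale.Agent.P217
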